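import Vale.Agent.P095JS.Stmt

/-! The Jiang-Su algebra as Jiang and Su describe it, for the final statements. -/

namespace Vale.Agent.P095U65

universe u

/-- `Z` is the closure of an increasing sequence of prime dimension drop algebras with the same
unit (an inductive limit with unital injective connecting maps), it is simple, and it has exactly
one tracial state. -/
structure IsJS (Z : Type u) [CStarAlgebra Z] : Prop where
  limit : ∃ (p q : ℕ → ℕ) (R : ℕ → StarSubalgebra ℂ Z), Monotone R ∧
    (∀ n, 0 < p n ∧ 0 < q n ∧ Nat.Coprime (p n) (q n) ∧ P101.IsDimDrop (p n) (q n) (R n)) ∧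
    Dense (⋃ n, (R n : Set Z))
  simple : P095R.IsSimpleAlg Z
  trace : ∃! τ : Z →ₗ[ℂ] ℂ, JS.IsTracialState τ

end Vale.Agent.P095U65
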