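import Mathlib

/-! Two finite dimensional representations with the same character: a nonzero intertwiner. -/

open scoped ComplexOrder

namespace Vale.Agent.P095U65

variable {A : Type*} [Ring A] [StarRing A] [Algebra ℂ A] {n : Type*} [Fintype n] [DecidableEq n]

theorem trace_idem {P : Matrix n n ℂ} (h : P * P = P) : ∃ k : ℕ, P.trace = k := by
  have h1 : IsIdempotentElem (Matrix.toLin' P) := by
    change Matrix.toLin' P * Matrix.toLin' P = Matrix.toLin' P
    rw [Module.End.mul_eq_comp, ← Matrix.toLin'_mul, h]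
  refine ⟨Module.finrank ℂ (LinearMap.range (Matrix.toLin' P)), ?_⟩
  rw [← Matrix.trace_toLin'_eq, (LinearMap.IsIdempotentElem.isProj_range _ h1).trace]

omit [DecidableEq n] in
theorem eq_zero_of_trace {X : Matrix n n ℂ} (h : (star X * X).trace = 0) : X = 0 :=
  Matrix.trace_conjTranspose_mul_self_eq_zero_iff.1 h

/-- The data: `P` is a projection which commutes with the representation `π`. -/
structure Cut (π : A →⋆ₐ[ℂ] Matrix n n ℂ) (P : Matrix n n ℂ) : Prop where
  sq : P * P = P
  sa : star P = P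
  comm : ∀ a, P * π a = π a * P

namespace Cut

variable {π π' : A →⋆ₐ[ℂ] Matrix n n ℂ} {P P' : Matrix n n ℂ}

theorem mul (h : Cut π P) (a b : A) : π a * P * (π b * P) = π (a * b) * P := by
  rw [map_mul, mul_assoc (π a), ← mul_assoc P, h.comm, mul_assoc (π b), h.sq, mul_assoc]

theorem star' (h : Cut π P) (a : A) : star (π a * P) = π (star a) * P := by
  rw [star_mul, h.sa, ← map_star, h.comm]

theorem ext (h : Cut π P) {c c' : A}
    (hc : ∀ a, (π a * P * (π c * P)).trace = (π a * P * (π c' * P)).trace) :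
    π c * P = π c' * P := by
  rw [← sub_eq_zero, ← sub_mul, ← map_sub]
  apply eq_zero_of_trace
  rw [h.star', map_sub π c c', sub_mul (π c), mul_sub, Matrix.trace_sub, hc, sub_self]

theorem riesz (h : Cut π P) (Z : Matrix n n ℂ) :
    ∃ c, ∀ a, (π a * P * Z).trace = (π a * P * (π c * P)).trace := by
  let L : A →ₗ[ℂ] Matrix n n ℂ := (LinearMap.mulRight ℂ P).comp π.toLinearMap
  let B : LinearMap.BilinForm ℂ (Matrix n n ℂ) :=
    (LinearMap.mul ℂ (Matrix n n ℂ)).compr₂ (Matrix.traceLinearMap n ℂ ℂ)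
  have hB : ∀ X Y, B X Y = (X * Y).trace := fun _ _ => rfl
  have hr : B.IsRefl := fun X Y hXY => by
    rw [hB] at hXY ⊢
    rwa [Matrix.trace_mul_comm]
  have hd : Disjoint (LinearMap.range L) (B.orthogonal (LinearMap.range L)) := by
    rw [Submodule.disjoint_def]
    rintro _ ⟨c, rfl⟩ hc
    apply eq_zero_of_trace
    change (star (π c * P) * (π c * P)).trace = 0
    rw [h.star']
    exact hc (L (star c)) ⟨_, rfl⟩
  have hcompl := B.isCompl_orthogonal_of_restrict_nondegenerate hr
    (B.nondegenerate_restrict_of_disjoint_orthogonal hr hd)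
  have hZ : Z ∈ LinearMap.range L ⊔ B.orthogonal (LinearMap.range L) := by
    rw [hcompl.sup_eq_top]; trivial
  obtain ⟨_, ⟨c, rfl⟩, W, hW, rfl⟩ := Submodule.mem_sup.1 hZ
  refine ⟨c, fun a => ?_⟩
  have h1 : (π a * P * W).trace = 0 := hW (L a) ⟨_, rfl⟩
  rw [mul_add, Matrix.trace_add, h1, add_zero]
  rfl

theorem exists_map (h : Cut π P) (h' : Cut π' P')
    (ht : ∀ a, (π a * P).trace = (π' a * P').trace) :
    ∃ Φ : Matrix n n ℂ →ₗ[ℂ] Matrix n n ℂ, (∀ Z, ∃ c, Φ Z = π c * P) ∧
      ∀ Z a, (π a * P * Φ Z).trace = (π' a * P' * Z).trace := by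
  choose c hc using h'.riesz
  have h1 : ∀ Z a, (π a * P * (π (c Z) * P)).trace = (π' a * P' * Z).trace := fun Z a => by
    rw [h.mul, ht, ← h'.mul, ← hc]
  refine ⟨{ toFun := fun Z => π (c Z) * P, map_add' := fun Z W => ?_, map_smul' := fun r Z => ?_ },
    fun Z => ⟨_, rfl⟩, h1⟩
  · rw [← add_mul, ← map_add]
    refine h.ext fun a => ?_
    rw [h1, map_add, add_mul (π (c Z)), mul_add, mul_add, Matrix.trace_add, Matrix.trace_add, h1,
      h1]
  · rw [RingHom.id_apply, ← smul_mul_assoc, ← map_smul]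
    refine h.ext fun a => ?_
    rw [h1, map_smul, smul_mul_assoc, mul_smul_comm, mul_smul_comm, Matrix.trace_smul,
      Matrix.trace_smul, h1]

theorem exists_inter (h : Cut π P) (h' : Cut π' P')
    (ht : ∀ a, (π a * P).trace = (π' a * P').trace) (h0 : P' ≠ 0) :
    ∃ Y : Matrix n n ℂ, Y ≠ 0 ∧ (∀ a, π a * Y = Y * π' a) ∧ P * Y = Y ∧ Y * P' = Y := by
  obtain ⟨Φ, hΦ, hΦt⟩ := exists_map h h' ht
  have huniq : ∀ (Z : Matrix n n ℂ) (c : A),
      (∀ a, (π a * P * (π c * P)).trace = (π' a * P' * Z).trace) → Φ Z = π c * P := by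
    intro Z c hc
    obtain ⟨c', hc'⟩ := hΦ Z
    rw [hc']
    refine h.ext fun a => ?_
    rw [hc, ← hc', hΦt]
  have hl : ∀ a Z, Φ (π' a * Z) = π a * Φ Z := fun a Z => by
    obtain ⟨c, hc⟩ := hΦ Z
    rw [hc, ← mul_assoc, ← map_mul]
    refine huniq _ _ fun b => ?_
    have e1 : π b * P * (π (a * c) * P) = π (b * a) * P * (π c * P) := by
      rw [h.mul, h.mul, mul_assoc]
    have e2 : π' b * P' * (π' a * Z) = π' (b * a) * P' * Z := by
      rw [map_mul, mul_assoc (π' b) (π' a) P', ← h'.comm a]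
      simp only [mul_assoc]
    rw [e1, e2, ← hc, hΦt]
  have hP : ∀ Z, P * Φ Z = Φ Z := fun Z => by
    obtain ⟨c, hc⟩ := hΦ Z
    rw [hc, ← mul_assoc, h.comm, mul_assoc, h.sq]
  have hP' : ∀ Z, Φ (P' * Z) = Φ Z := fun Z => by
    obtain ⟨c, hc⟩ := hΦ Z
    rw [hc]
    refine huniq _ _ fun b => ?_
    rw [← hc, hΦt, ← mul_assoc, mul_assoc (π' b) P' P', h'.sq]
  let Y : n → n → Matrix n n ℂ := fun l m => Matrix.of fun i j => Φ (Matrix.single j l 1) i m
  have hY : ∀ l m (M : Matrix n n ℂ) i j, (Y l m * M) i j = Φ (M * Matrix.single j l 1) i m := by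
    intro l m M i j
    have e : M * Matrix.single j l (1 : ℂ) = ∑ k, M k j • Matrix.single k l (1 : ℂ) := by
      ext a b
      rw [Matrix.sum_apply, Finset.sum_eq_single a]
      · by_cases hb : l = b
        · subst hb
          simp
        · rw [Matrix.mul_single_apply_of_ne _ _ _ _ _ (Ne.symm hb)]
          simp [hb]
      · intro k _ hk
        simp [hk]
      · intro ha
        exact absurd (Finset.mem_univ a) ha
    rw [e, map_sum, Matrix.sum_apply, Matrix.mul_apply]
    refine Finset.sum_congr rfl fun k _ => ?_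
    rw [map_smul, Matrix.smul_apply, smul_eq_mul, mul_comm]
    rfl
  have hY' : ∀ l m (M : Matrix n n ℂ) i j,
      (M * Y l m) i j = (M * Φ (Matrix.single j l 1)) i m := fun l m M i j => rfl
  have hne : ∃ l m, Y l m ≠ 0 := by
    by_contra hcon
    push Not at hcon
    have h1 : ∀ j l, Φ (Matrix.single j l 1) = 0 := fun j l => by
      ext i m
      exact congrFun (congrFun (hcon l m) i) j
    have h2 : Φ P' = 0 := by
      rw [Matrix.matrix_eq_sum_single P', map_sum]
      refine Finset.sum_eq_zero fun j _ => ?_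
      rw [map_sum]
      refine Finset.sum_eq_zero fun l _ => ?_
      have : Matrix.single j l (P' j l) = P' j l • Matrix.single j l (1 : ℂ) := by
        rw [Matrix.smul_single, smul_eq_mul, mul_one]
      rw [this, map_smul, h1, smul_zero]
    have h3 := hΦt P' 1
    rw [h2, mul_zero, Matrix.trace_zero, map_one, one_mul] at h3
    apply h0
    apply eq_zero_of_trace
    rw [h'.sa, ← h3]
  obtain ⟨l, m, hlm⟩ := hne
  refine ⟨Y l m, hlm, fun a => ?_, ?_, ?_⟩
  · ext i j
    rw [hY, hY', hl]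
  · ext i j
    rw [hY', hP]
    rfl
  · ext i j
    rw [hY, hP']
    rfl

end Cut

end Vale.Agent.P095U65
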