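import Vale.Agent.P095JS.PartB2
import Vale.Agent.P095U65.Inter

/-! The character of a finite dimensional representation of a dimension drop algebra. -/

open scoped Kronecker Matrix.Norms.L2Operator unitInterval

namespace Vale.Agent.P095U65

open Vale.Agent.JS Vale.Agent.JS.PartB Vale.Agent.JS.PartD

variable {p q : ℕ}

theorem exists_lift {A B C : Type*} [Semiring A] [Star A] [Algebra ℂ A] [Semiring B] [Star B]
    [Algebra ℂ B] [Semiring C] [Star C] [Algebra ℂ C] (φ : A →⋆ₐ[ℂ] C) (o : B →⋆ₐ[ℂ] C)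
    (ho : Function.Injective o) (h : ∀ a, ∃ b, φ a = o b) :
    ∃ ψ : A →⋆ₐ[ℂ] B, ∀ a, o (ψ a) = φ a := by
  choose ψ hψ using h
  refine ⟨{ toFun := ψ
            map_one' := ho (by rw [← hψ, map_one, map_one])
            map_mul' := fun x y => ho (by rw [← hψ, map_mul, map_mul, ← hψ, ← hψ])
            map_zero' := ho (by rw [← hψ, map_zero, map_zero])
            map_add' := fun x y => ho (by rw [← hψ, map_add, map_add, ← hψ, ← hψ])
            commutes' := fun r => ho (by rw [← hψ, AlgHomClass.commutes, AlgHomClass.commutes])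
            map_star' := fun x => ho (by rw [← hψ, map_star, map_star, ← hψ]) },
    fun a => (hψ a).symm⟩

/-- Evaluation at a point. -/
noncomputable def ev (t : I) : DD p q →⋆ₐ[ℂ] MM p q where
  toFun f := (f : CM p q) t
  map_one' := rfl
  map_mul' _ _ := rfl
  map_zero' := rfl
  map_add' _ _ := rfl
  commutes' _ := rfl
  map_star' _ := rfl

theorem ev_sub (t : I) (f g : DD p q) : ev t (f - g) = ev t f - ev t g := rfl
theorem ev_mul (t : I) (f g : DD p q) : ev t (f * g) = ev t f * ev t g := rfl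

theorem o1_injective (hq : 0 < q) :
    Function.Injective (o1 : Matrix (Fin p) (Fin p) ℂ →⋆ₐ[ℂ] MM p q) := fun x y h => by
  ext a b
  rw [← one1_apply_self x a b ⟨0, hq⟩, ← one1_apply_self y a b ⟨0, hq⟩]
  exact congrFun (congrFun h _) _

theorem o2_injective (hp : 0 < p) :
    Function.Injective (o2 : Matrix (Fin q) (Fin q) ℂ →⋆ₐ[ℂ] MM p q) := fun x y h => by
  ext a b
  rw [← one2_apply_self x a b ⟨0, hp⟩, ← one2_apply_self y a b ⟨0, hp⟩]
  exact congrFun (congrFun h _) _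

theorem exists_lam (hq : 0 < q) : ∃ ψ : DD p q →⋆ₐ[ℂ] Matrix (Fin p) (Fin p) ℂ,
    ∀ f, one1 q (ψ f) = ev 0 f :=
  exists_lift (ev 0) o1 (o1_injective hq) fun f => exists_one1 hq f.2.1

theorem exists_rho (hp : 0 < p) : ∃ ψ : DD p q →⋆ₐ[ℂ] Matrix (Fin q) (Fin q) ℂ,
    ∀ f, one2 p (ψ f) = ev 1 f :=
  exists_lift (ev 1) o2 (o2_injective hp) fun f => exists_one2 hp f.2.2

/-- The irreducible representations at the two ends. -/
noncomputable def lam (hq : 0 < q) : DD p q →⋆ₐ[ℂ] Matrix (Fin p) (Fin p) ℂ :=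
  (exists_lam hq).choose
noncomputable def rho (hp : 0 < p) : DD p q →⋆ₐ[ℂ] Matrix (Fin q) (Fin q) ℂ :=
  (exists_rho hp).choose

theorem one1_lam (hq : 0 < q) (f : DD p q) : one1 q (lam hq f) = ev 0 f :=
  (exists_lam hq).choose_spec f
theorem one2_rho (hp : 0 < p) (f : DD p q) : one2 p (rho hp f) = ev 1 f :=
  (exists_rho hp).choose_spec f

theorem trace_ev_zero (hq : 0 < q) (f : DD p q) : (ev 0 f).trace = q * (lam hq f).trace := by
  rw [← one1_lam hq, one1, Matrix.trace_kronecker, Matrix.trace_one, Fintype.card_fin, mul_comm]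

theorem trace_ev_one (hp : 0 < p) (f : DD p q) : (ev 1 f).trace = p * (rho hp f).trace := by
  rw [← one2_rho hp, one2, Matrix.trace_kronecker, Matrix.trace_one, Fintype.card_fin]

/-- Scalar functions. -/
noncomputable def sc : C(I, ℂ) →ₐ[ℂ] DD p q where
  toFun g := ⟨el g 1, el_mem (Or.inr fun _ => Commute.one_left _)
    (Or.inr fun _ => Commute.one_left _)⟩
  map_one' := Subtype.ext (by ext t : 1; simp)
  map_mul' g h := Subtype.ext (by
    change el (g * h) 1 = el g 1 * el h 1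
    rw [el_mul, mul_one])
  map_zero' := Subtype.ext (by ext t : 1; simp)
  map_add' g h := Subtype.ext (by ext t : 1; simp [add_smul])
  commutes' r := Subtype.ext (by ext t : 1; simp [Algebra.algebraMap_eq_smul_one])

theorem ev_sc (g : C(I, ℂ)) (t : I) : ev t (sc g : DD p q) = g t • (1 : MM p q) := rfl

variable {n : Type*} [Fintype n] [DecidableEq n]

theorem norm_le_of_ev {f : DD p q} {c : ℝ} (hc : 0 ≤ c) (h : ∀ t, ‖ev t f‖ ≤ c) :
    ‖(f : CM p q)‖ ≤ c := (ContinuousMap.norm_le _ hc).2 h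

/-- A finite dimensional representation lives on a finite set of points. -/
theorem exists_support (π : DD p q →⋆ₐ[ℂ] Matrix n n ℂ) : ∃ Λ : Finset I, 0 ∈ Λ ∧ 1 ∈ Λ ∧
    ∀ f : DD p q, (∀ t ∈ Λ, ev t f = 0) → π f = 0 := by
  classical
  let c : C(I, ℂ) := ⟨fun t => ((t : ℝ) : ℂ), by fun_prop⟩
  let χ := (π (sc c)).charpoly
  let m : C(I, ℂ) := Polynomial.aeval c χ
  have hm : π (sc m) = 0 := by
    have h1 := Matrix.aeval_self_charpoly (π (sc c))
    have h2 := Polynomial.aeval_algHom_apply ((π : DD p q →ₐ[ℂ] Matrix n n ℂ).comp sc) c χ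
    exact h2.symm.trans h1
  have hfin : {t : I | m t = 0}.Finite := by
    have h1 : {z : ℂ | χ.IsRoot z}.Finite :=
      Polynomial.finite_setOfPred_isRoot (Matrix.charpoly_monic _).ne_zero
    refine (h1.preimage (f := c) fun x _ y _ h => Subtype.ext (Complex.ofReal_injective h)).subset
      fun t ht => ?_
    have h2 : m t = χ.eval (c t) := Polynomial.aeval_continuousMap_apply _ _ _
    exact h2.symm.trans ht
  refine ⟨insert 0 (insert 1 hfin.toFinset), by simp, by simp, fun f hf => ?_⟩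
  rw [← norm_le_zero_iff]
  refine le_of_forall_pos_le_add fun ε hε => ?_
  rw [zero_add]
  have hfc : Continuous fun t => ‖ev t f‖ := (f : CM p q).continuous.norm
  obtain ⟨a, ha, ham⟩ := (isClosed_le continuous_const hfc (f := fun _ => ε)).isCompact
    |>.exists_forall_le' (f := fun t => ‖m t‖ ^ 2) (by fun_prop) (a := 0) fun t ht => by
      have : m t ≠ 0 := fun h0 => by
        have h1 := hf t (by simp [h0])
        have h2 : ε ≤ ‖ev t f‖ := ht
        rw [h1, norm_zero] at h2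
        exact absurd h2 (not_le.2 hε)
      positivity
  set δ : ℝ := ε * a / (‖(f : CM p q)‖ + 1) with hδ
  have hδ0 : 0 < δ := by positivity
  have hne : ∀ t, ((‖m t‖ ^ 2 + δ : ℝ) : ℂ) ≠ 0 := fun t => by
    have : 0 < ‖m t‖ ^ 2 + δ := by positivity
    exact_mod_cast this.ne'
  let g : C(I, ℂ) := ⟨fun t => star (m t) / ((‖m t‖ ^ 2 + δ : ℝ) : ℂ),
    Continuous.div (by fun_prop) (by fun_prop) hne⟩
  have h1 : π f = π (f - sc m * (sc g * f)) := by
    rw [map_sub π, map_mul π, hm, zero_mul, sub_zero]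
  rw [h1]
  refine (norm_hom_le π _).trans (norm_le_of_ev hε.le fun t => ?_)
  have h2 : ev t (f - sc m * (sc g * f)) = ((δ / (‖m t‖ ^ 2 + δ) : ℝ) : ℂ) • ev t f := by
    rw [ev_sub, ev_mul, ev_mul, ev_sc, ev_sc, smul_mul_assoc, one_mul, smul_mul_assoc, one_mul,
      smul_smul]
    nth_rewrite 1 [← one_smul ℂ (ev t f)]
    rw [← sub_smul]
    congr 1
    have h3 : m t * star (m t) = ((‖m t‖ ^ 2 : ℝ) : ℂ) := by
      rw [Complex.star_def, Complex.mul_conj, Complex.normSq_eq_norm_sq]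
    have h4 := hne t
    change 1 - m t * (star (m t) / ((‖m t‖ ^ 2 + δ : ℝ) : ℂ)) = _
    rw [← mul_div_assoc, h3, Complex.ofReal_div, eq_div_iff h4, sub_mul, div_mul_cancel₀ _ h4]
    push_cast
    ring
  have h5 : 0 < ‖m t‖ ^ 2 + δ := by positivity
  rw [h2, norm_smul, Complex.norm_real, Real.norm_of_nonneg (by positivity)]
  rcases le_total ε ‖ev t f‖ with h6 | h6
  · have h7 : a ≤ ‖m t‖ ^ 2 := ham t h6
    have h8 : ‖ev t f‖ ≤ ‖(f : CM p q)‖ := (f : CM p q).norm_coe_le_norm t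
    have h9 : δ * (‖(f : CM p q)‖ + 1) = ε * a := by rw [hδ]; field_simp
    rw [div_mul_eq_mul_div, div_le_iff₀ h5]
    nlinarith
  · have h7 : δ / (‖m t‖ ^ 2 + δ) ≤ 1 := by
      rw [div_le_one h5]
      nlinarith [sq_nonneg ‖m t‖]
    nlinarith [norm_nonneg (ev t f)]

/-- A multiplicative linear map between matrix algebras multiplies the trace by an integer. -/
theorem exists_mult {d : Type*} [Fintype d] [DecidableEq d] (θ : Matrix d d ℂ →ₗ[ℂ] Matrix n n ℂ)
    (h : ∀ x y, θ (x * y) = θ x * θ y) : ∃ c : ℕ, ∀ x, (θ x).trace = c * x.trace := by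
  rcases isEmpty_or_nonempty d with hd | ⟨⟨o⟩⟩
  · refine ⟨0, fun x => ?_⟩
    rw [Subsingleton.elim x 0, map_zero, Matrix.trace_zero, Matrix.trace_zero, mul_zero]
  obtain ⟨c, hc⟩ := trace_idem (P := θ (Matrix.single o o 1)) (by
    rw [← h, Matrix.single_mul_single_same, mul_one])
  have h1 : ∀ a b, (θ (Matrix.single a b 1)).trace = if a = b then (c : ℂ) else 0 := by
    intro a b
    have e : Matrix.single a b (1 : ℂ) = Matrix.single a o 1 * Matrix.single o b 1 := by
      rw [Matrix.single_mul_single_same, mul_one]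
    rw [e, h, Matrix.trace_mul_comm, ← h]
    split_ifs with hab
    · rw [hab, Matrix.single_mul_single_same, mul_one, hc]
    · rw [Matrix.single_mul_single_of_ne _ _ _ _ (Ne.symm hab), map_zero, Matrix.trace_zero]
  refine ⟨c, fun x => ?_⟩
  conv_lhs => rw [Matrix.matrix_eq_sum_single x]
  rw [map_sum, Matrix.trace_sum, Matrix.trace, Finset.mul_sum]
  refine Finset.sum_congr rfl fun a _ => ?_
  rw [map_sum, Matrix.trace_sum, Finset.sum_eq_single a]
  · have : Matrix.single a a (x a a) = x a a • Matrix.single a a (1 : ℂ) := by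
      rw [Matrix.smul_single, smul_eq_mul, mul_one]
    rw [this, map_smul, Matrix.trace_smul, h1, if_pos rfl, smul_eq_mul, mul_comm]
    rfl
  · intro b _ hb
    have : Matrix.single a b (x a b) = x a b • Matrix.single a b (1 : ℂ) := by
      rw [Matrix.smul_single, smul_eq_mul, mul_one]
    rw [this, map_smul, Matrix.trace_smul, h1, if_neg (Ne.symm hb), smul_zero]
  · intro ha
    exact absurd (Finset.mem_univ a) ha

/-- The part of the character at one point. -/
theorem local_char (π : DD p q →⋆ₐ[ℂ] Matrix n n ℂ) {Λ : Finset I}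
    (hΛ : ∀ f : DD p q, (∀ t ∈ Λ, ev t f = 0) → π f = 0) {l : I} {g : C(I, ℂ)} (hg : g l = 1)
    (hg0 : ∀ t ∈ Λ, t ≠ l → g t = 0) {d : Type*} [Fintype d] [DecidableEq d]
    (o : Matrix d d ℂ →⋆ₐ[ℂ] MM p q) (hm : ∀ x, el g (o x) ∈ DD p q) :
    ∃ c : ℕ, ∀ (f : DD p q) x, ev l f = o x → (π (sc g * f)).trace = c * x.trace := by
  have hcongr : ∀ f f' : DD p q, (∀ t ∈ Λ, ev t f = ev t f') → π f = π f' := fun f f' h => by
    rw [← sub_eq_zero, ← map_sub]
    exact hΛ _ fun t ht => by rw [map_sub, h t ht, sub_self]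
  let e : Matrix d d ℂ →ₗ[ℂ] DD p q :=
    { toFun := fun x => ⟨el g (o x), hm x⟩
      map_add' := fun x y => Subtype.ext (by ext t : 1; simp)
      map_smul' := fun r x => Subtype.ext (by ext t : 1; simp [smul_comm r]) }
  have he : ∀ x t, ev t (e x) = g t • o x := fun _ _ => rfl
  obtain ⟨c, hc⟩ := exists_mult (π.toLinearMap.comp e) fun x y => by
    change π (e (x * y)) = π (e x) * π (e y)
    rw [← map_mul]
    refine hcongr _ _ fun t ht => ?_
    rw [map_mul (ev t), he, he, he, smul_mul_smul_comm, map_mul]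
    by_cases htl : t = l
    · rw [htl, hg, mul_one]
    · rw [hg0 t ht htl, mul_zero]
  refine ⟨c, fun f x hx => ?_⟩
  rw [← hc x]
  congr 1
  refine hcongr _ _ fun t ht => ?_
  rw [map_mul, ev_sc, he, smul_mul_assoc, one_mul]
  by_cases htl : t = l
  · rw [htl, hx]
  · rw [hg0 t ht htl, zero_smul, zero_smul]

theorem exists_enum (Λ : Finset I) (c : I → ℕ) : ∃ (k : ℕ) (t : Fin k → I), Monotone t ∧
    ∀ F : I → ℂ, ∑ l ∈ Λ, c l * F l = ∑ j, F (t j) := by
  let e := Fintype.equivFin (Σ l : Λ, Fin (c l))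
  let t₀ : Fin _ → I := fun j => (e.symm j).1
  refine ⟨_, t₀ ∘ Tuple.sort t₀, Tuple.monotone_sort t₀, fun F => ?_⟩
  have h1 : ∑ j, F ((t₀ ∘ Tuple.sort t₀) j) = ∑ j, F (t₀ j) :=
    Equiv.sum_comp (Tuple.sort t₀) fun j => F (t₀ j)
  have h2 : ∑ j, F (t₀ j) = ∑ x : Σ l : Λ, Fin (c l), F x.1 :=
    Equiv.sum_comp e.symm fun x => F x.1
  rw [h1, h2, Fintype.sum_sigma, ← Finset.sum_coe_sort Λ]
  refine Finset.sum_congr rfl fun l _ => ?_
  simp

/-- The character of the representation with `a`, `b` copies of the two end representations and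
the evaluations at the points `t j`. -/
noncomputable def chi (hp : 0 < p) (hq : 0 < q) (a b : ℕ) {k : ℕ} (t : Fin k → I) (f : DD p q) : ℂ :=
  a * (lam hq f).trace + b * (rho hp f).trace + ∑ j, (ev (t j) f).trace

theorem exists_chi (hp : 0 < p) (hq : 0 < q) (π : DD p q →⋆ₐ[ℂ] Matrix n n ℂ) :
    ∃ (a b k : ℕ) (t : Fin k → I), a < q ∧ b < p ∧ Monotone t ∧
      ∀ f, (π f).trace = chi hp hq a b t f := by
  classical
  obtain ⟨Λ, h0, h1, hΛ⟩ := exists_support π
  have hg : ∀ l : I, ∃ g : C(I, ℂ), g l = 1 ∧ ∀ t ∈ Λ, t ≠ l → g t = 0 := fun l => by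
    obtain ⟨g, hg0, hg1, -⟩ := exists_continuous_zero_one_of_isClosed
      (Λ.erase l).finite_toSet.isClosed (isClosed_singleton (x := l)) (by simp)
    refine ⟨⟨fun t => (g t : ℂ), by fun_prop⟩, ?_, fun t ht htl => ?_⟩
    · change ((g l : ℝ) : ℂ) = 1
      rw [hg1 rfl]; rfl
    · change ((g t : ℝ) : ℂ) = 0
      rw [hg0 (Finset.mem_coe.2 (Finset.mem_erase.2 ⟨htl, ht⟩))]; rfl
  choose g hg hg0 using hg
  obtain ⟨a, ha⟩ := local_char π hΛ (hg 0) (hg0 0) o1 fun x =>
    el_mem (Or.inr fun y => one1_comm x y) (Or.inl (hg0 0 1 h1 one_ne_zero))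
  obtain ⟨b, hb⟩ := local_char π hΛ (hg 1) (hg0 1) o2 fun y =>
    el_mem (Or.inl (hg0 1 0 h0 zero_ne_one)) (Or.inr fun x => (one1_comm x y).symm)
  have hc : ∀ l : I, ∃ c : ℕ, ∀ f : DD p q, (π (sc (g l) * f)).trace = c * (ev l f).trace +
      ((if l = 0 then ((a % q : ℕ) : ℂ) * (lam hq f).trace else 0) +
        if l = 1 then ((b % p : ℕ) : ℂ) * (rho hp f).trace else 0) := by
    intro l
    by_cases hl0 : l = 0
    · subst hl0
      refine ⟨a / q, fun f => ?_⟩
      rw [ha f _ (one1_lam hq f).symm, if_pos rfl, if_neg zero_ne_one, trace_ev_zero hq]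
      have : (a : ℂ) = q * (a / q : ℕ) + (a % q : ℕ) := by exact_mod_cast (Nat.div_add_mod a q).symm
      rw [this]; ring
    by_cases hl1 : l = 1
    · subst hl1
      refine ⟨b / p, fun f => ?_⟩
      rw [hb f _ (one2_rho hp f).symm, if_pos rfl, if_neg one_ne_zero, trace_ev_one hp]
      have : (b : ℂ) = p * (b / p : ℕ) + (b % p : ℕ) := by exact_mod_cast (Nat.div_add_mod b p).symm
      rw [this]; ring
    obtain ⟨c, hc⟩ := local_char π hΛ (hg l) (hg0 l) (StarAlgHom.id ℂ (MM p q)) fun x =>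
      el_mem (Or.inl (hg0 l 0 h0 (Ne.symm hl0))) (Or.inl (hg0 l 1 h1 (Ne.symm hl1)))
    refine ⟨c, fun f => ?_⟩
    rw [hc f (ev l f) rfl, if_neg hl0, if_neg hl1, add_zero, add_zero]
  choose c hc using hc
  obtain ⟨k, t, ht, hsum⟩ := exists_enum Λ c
  refine ⟨a % q, b % p, k, t, Nat.mod_lt _ hq, Nat.mod_lt _ hp, ht, fun f => ?_⟩
  have h2 : π f = ∑ l ∈ Λ, π (sc (g l) * f) := by
    rw [← map_sum, ← sub_eq_zero, ← map_sub]
    refine hΛ _ fun t ht => ?_
    rw [map_sub, map_sum, Finset.sum_eq_single t]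
    · rw [map_mul, ev_sc, hg, one_smul, one_mul, sub_self]
    · intro l _ hl
      rw [map_mul, ev_sc, hg0 l t ht (Ne.symm hl), zero_smul, zero_mul]
    · intro h
      exact absurd ht h
  rw [h2, Matrix.trace_sum]
  simp only [hc]
  rw [Finset.sum_add_distrib, Finset.sum_add_distrib, hsum fun l => (ev l f).trace,
    Finset.sum_ite_eq' Λ 0, Finset.sum_ite_eq' Λ 1, if_pos h0, if_pos h1, chi]
  ring

end Vale.Agent.P095U65
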