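import Vale.Agent.P095U65.Inter

/-! Finite dimensional representations with the same character are unitarily equivalent, and the
set of all intertwining unitaries is path connected. -/

open scoped ComplexOrder Matrix.Norms.L2Operator

namespace Vale.Agent.P095U65

variable {A : Type*} [Ring A] [StarRing A] [Algebra ℂ A] {n : Type*} [Fintype n] [DecidableEq n]

/-- The polar part of a matrix. -/
theorem exists_polar (Y : Matrix n n ℂ) : ∃ G : Matrix n n ℂ,
    (∀ M, Commute (star Y * Y) M → Commute G M) ∧ (Y * G) * star (Y * G) * (Y * G) = Y * G ∧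
      (Y * G = 0 → Y = 0) := by
  have hT : IsSelfAdjoint (star Y * Y) := IsSelfAdjoint.star_mul_self Y
  set T := star Y * Y with hTdef
  have hc : ∀ f : ℝ → ℝ, ContinuousOn f (spectrum ℝ T) := fun f =>
    T.finite_real_spectrum.continuousOn f
  have hpos : ∀ x ∈ spectrum ℝ T, 0 ≤ x := spectrum_star_mul_self_nonneg
  let g : ℝ → ℝ := fun t => (√t)⁻¹
  have hG : star (cfc g T) = cfc g T := (cfc_predicate g T : IsSelfAdjoint _)
  have h1 : star (Y * cfc g T) * (Y * cfc g T) = cfc (fun t => g t * t * g t) T := by
    rw [cfc_mul _ _ T (hc _) (hc _), cfc_mul _ _ T (hc _) (hc _), cfc_id' ℝ T, star_mul, hG,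
      hTdef]
    simp only [mul_assoc]
  have h2 : cfc g T * cfc (fun t => g t * t * g t) T = cfc g T := by
    rw [← cfc_mul _ _ T (hc _) (hc _)]
    refine cfc_congr fun t ht => ?_
    rcases (hpos t ht).lt_or_eq with h | h
    · have h3 : √t ≠ 0 := (Real.sqrt_pos.2 h).ne'
      have h4 : √t * √t = t := Real.mul_self_sqrt h.le
      simp only [g]
      field_simp
      nlinarith
    · simp [g, ← h]
  have h3 : T * cfc (fun t => g t * t * g t) T = T := by
    nth_rewrite 1 [← cfc_id' ℝ T]
    rw [← cfc_mul _ _ T (hc _) (hc _)]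
    nth_rewrite 2 [← cfc_id' ℝ T]
    refine cfc_congr fun t ht => ?_
    rcases (hpos t ht).lt_or_eq with h | h
    · have h3 : √t ≠ 0 := (Real.sqrt_pos.2 h).ne'
      have h4 : √t * √t = t := Real.mul_self_sqrt h.le
      simp only [g]
      field_simp
      nlinarith
    · simp [← h]
  refine ⟨cfc g T, fun M hM => hM.cfc_real g, ?_, fun h0 => ?_⟩
  · rw [mul_assoc, h1, mul_assoc, h2]
  · rw [h0, mul_zero] at h1
    rw [← h1, mul_zero] at h3
    apply eq_zero_of_trace
    rw [← hTdef, ← h3, Matrix.trace_zero]

variable {π π' : A →⋆ₐ[ℂ] Matrix n n ℂ}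

theorem inter_star {V : Matrix n n ℂ} (h : ∀ a, π a * V = V * π' a) (a : A) :
    π' a * star V = star V * π a := by
  have := congrArg star (h (star a))
  rw [star_mul, star_mul, ← map_star, ← map_star, star_star] at this
  exact this.symm

theorem cut_left {V : Matrix n n ℂ} (h : ∀ a, π a * V = V * π' a) (hV : V * star V * V = V) :
    Cut π (1 - V * star V) where
  sq := by rw [mul_sub, mul_one, sub_mul, one_mul, ← mul_assoc, hV, sub_self, sub_zero]
  sa := by rw [star_sub, star_one, star_mul, star_star]
  comm a := by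
    rw [sub_mul, mul_sub, one_mul, mul_one, mul_assoc, ← inter_star h, ← mul_assoc, ← h,
      mul_assoc]

theorem step (ht : ∀ a, (π a).trace = (π' a).trace) {V : Matrix n n ℂ}
    (h : ∀ a, π a * V = V * π' a) (hV : V * star V * V = V) (h0 : 1 - star V * V ≠ 0) :
    ∃ W : Matrix n n ℂ, W ≠ 0 ∧ (∀ a, π a * W = W * π' a) ∧ W * star W * W = W ∧
      star V * W = 0 ∧ W * star V = 0 := by
  have hV' : star V * V * star V = star V := by
    have := congrArg star hV
    rwa [star_mul, star_mul, star_star, ← mul_assoc] at this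
  have hP := cut_left h hV
  have hP' : Cut π' (1 - star V * V) := by
    have := cut_left (inter_star h) (by rw [star_star]; exact hV')
    rwa [star_star] at this
  obtain ⟨Y, hY0, hY, hPY, hYP⟩ := hP.exists_inter hP' (fun a => by
    rw [mul_sub, mul_sub, mul_one, mul_one, Matrix.trace_sub, Matrix.trace_sub, ht, ← mul_assoc,
      Matrix.trace_mul_comm (π a * V), ← mul_assoc, ← inter_star h, mul_assoc]) h0
  obtain ⟨G, hG, hW, hW0⟩ := exists_polar Y
  have hc : ∀ a, Commute (star Y * Y) (π' a) := fun a => by
    change star Y * Y * π' a = π' a * (star Y * Y)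
    rw [mul_assoc, ← hY, ← mul_assoc, ← inter_star hY, mul_assoc]
  have hc' : Commute (star Y * Y) (1 - star V * V) := by
    have e : (1 - star V * V) * star Y = star Y := by
      have := congrArg star hYP
      rwa [star_mul, hP'.sa] at this
    change star Y * Y * (1 - star V * V) = (1 - star V * V) * (star Y * Y)
    rw [mul_assoc, hYP, ← mul_assoc, e]
  refine ⟨Y * G, fun e => hY0 (hW0 e), fun a => ?_, hW, ?_, ?_⟩
  · rw [← mul_assoc, hY, mul_assoc, ← (hG _ (hc a)).eq, mul_assoc]
  · rw [← hPY, ← mul_assoc, ← mul_assoc, mul_sub, mul_one, ← mul_assoc, hV', sub_self, zero_mul,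
      zero_mul]
  · have e : Y * G = Y * G * (1 - star V * V) := by
      rw [mul_assoc, (hG _ hc').eq, ← mul_assoc, hYP]
    rw [e, mul_assoc, sub_mul, one_mul, hV', sub_self, mul_zero]

/-- Representations with the same character are unitarily equivalent. -/
theorem exists_unitary (ht : ∀ a, (π a).trace = (π' a).trace) :
    ∃ v ∈ unitary (Matrix n n ℂ), ∀ a, π a * v = v * π' a := by
  have key : ∀ (d : ℕ) (V : Matrix n n ℂ), (∀ a, π a * V = V * π' a) → V * star V * V = V →
      (1 - star V * V).trace = d → ∃ v ∈ unitary (Matrix n n ℂ), ∀ a, π a * v = v * π' a := by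
    intro d
    induction d using Nat.strong_induction_on with
    | _ d ih =>
      intro V h hV hd
      by_cases h0 : 1 - star V * V = 0
      · have h1 : star V * V = 1 := (sub_eq_zero.1 h0).symm
        exact ⟨V, Unitary.mem_iff.2 ⟨h1, mul_eq_one_comm.1 h1⟩, h⟩
      · obtain ⟨W, hW0, hW, hWW, h1, h2⟩ := step ht h hV h0
        have h1' : star W * V = 0 := by
          have := congrArg star h1
          rwa [star_mul, star_star, star_zero] at this
        have h2' : V * star W = 0 := by
          have := congrArg star h2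
          rwa [star_mul, star_star, star_zero] at this
        have h3 : star (V + W) * (V + W) = star V * V + star W * W := by
          rw [star_add, add_mul, mul_add, mul_add, h1, h1', add_zero, zero_add]
        have h4 : (V + W) * star (V + W) * (V + W) = V + W := by
          rw [mul_assoc, h3, add_mul, mul_add, mul_add, ← mul_assoc, ← mul_assoc, ← mul_assoc,
            ← mul_assoc, hV, hWW, h2, h2', zero_mul, zero_mul, add_zero, zero_add]
        have h5 : ∀ a, π a * (V + W) = (V + W) * π' a := fun a => by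
          rw [mul_add, add_mul, h, hW]
        obtain ⟨j, hj⟩ := trace_idem (P := star W * W) (by
          rw [mul_assoc, ← mul_assoc W, hWW])
        obtain ⟨d', hd'⟩ := trace_idem (P := 1 - star (V + W) * (V + W)) (by
          rw [mul_sub, mul_one, sub_mul, one_mul, mul_assoc, ← mul_assoc (V + W), h4, sub_self,
            sub_zero])
        have hj0 : j ≠ 0 := by
          rintro rfl
          exact hW0 (eq_zero_of_trace (by rw [hj, Nat.cast_zero]))
        have h6 : d = d' + j := by
          have : (d : ℂ) = d' + j := by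
            rw [← hd, ← hd', ← hj, h3, ← Matrix.trace_add]
            congr 1
            abel
          exact_mod_cast this
        exact ih d' (by omega) (V + W) h5 h4 hd'
  refine key (Fintype.card n) 0 (fun a => by rw [mul_zero, zero_mul]) (by simp) ?_
  rw [mul_zero, sub_zero, Matrix.trace_one]

open selfAdjoint Unitary Complex in
theorem exp_arg (u : unitary (Matrix n n ℂ)) : expUnitary (argSelfAdjoint u) = u := by
  apply Subtype.ext
  have hc : ∀ f : ℂ → ℂ, ContinuousOn f (spectrum ℂ (u : Matrix n n ℂ)) := fun f =>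
    (Matrix.finite_spectrum _).continuousOn f
  rw [expUnitary_coe, argSelfAdjoint_coe, ← CFC.exp_eq_normedSpace_exp (𝕜 := ℂ),
    ← cfc_smul _ _ _ (hc _), ← cfc_comp' _ _ _ (by fun_prop) (hc _)]
  conv_rhs => rw [← cfc_id' ℂ (u : Matrix n n ℂ)]
  refine cfc_congr fun y hy ↦ ?_
  have hy₁ : ‖y‖ = 1 := spectrum.norm_eq_one_of_unitary u.2 hy
  have : I * y.arg = log y := Complex.ext (by simp [log_re, hy₁]) (by simp [log_im])
  simpa [← exp_eq_exp_ℂ, this] using exp_log (by aesop)

open selfAdjoint Unitary in
/-- The intertwining unitaries form a path connected set. -/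
theorem isPathConnected_inter (ht : ∀ a, (π a).trace = (π' a).trace) :
    IsPathConnected {v : unitary (Matrix n n ℂ) | ∀ a, π a * v = v * π' a} := by
  obtain ⟨v₀, hv₀, h₀⟩ := exists_unitary ht
  refine ⟨⟨v₀, hv₀⟩, h₀, fun {v} hv => ?_⟩
  let w : unitary (Matrix n n ℂ) := star (⟨v₀, hv₀⟩ : unitary (Matrix n n ℂ)) * v
  have hw : ∀ a, Commute (w : Matrix n n ℂ) (π' a) := fun a => by
    change star v₀ * (v : Matrix n n ℂ) * π' a = π' a * (star v₀ * v)
    rw [mul_assoc, ← hv a, ← mul_assoc, ← inter_star h₀, mul_assoc]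
  have hw' : ∀ a, Commute (star (w : Matrix n n ℂ)) (π' a) := fun a => by
    have := (hw (star a)).star_star
    rwa [← map_star, star_star] at this
  have hx : ∀ a, Commute (argSelfAdjoint w : Matrix n n ℂ) (π' a) := fun a => by
    rw [argSelfAdjoint_coe]
    exact (hw a).cfc (hw' a) _
  let γ := (expUnitaryPathToOne (argSelfAdjoint w)).map
    (f := fun x => (⟨v₀, hv₀⟩ : unitary (Matrix n n ℂ)) * x) (by fun_prop)
  refine ⟨γ.cast (mul_one _).symm ?_, fun t a => ?_⟩
  · rw [exp_arg, ← mul_assoc, Unitary.mul_star_self, one_mul]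
  · have h1 : Commute (expUnitary ((t : ℝ) • argSelfAdjoint w) : Matrix n n ℂ) (π' a) := by
      rw [expUnitary_coe]
      exact (((hx a).smul_left (t : ℝ)).smul_left Complex.I).exp_left
    change π a * (v₀ * (expUnitary ((t : ℝ) • argSelfAdjoint w) : Matrix n n ℂ)) =
      v₀ * (expUnitary ((t : ℝ) • argSelfAdjoint w) : Matrix n n ℂ) * π' a
    rw [← mul_assoc, h₀, mul_assoc, ← h1.eq, mul_assoc]

end Vale.Agent.P095U65
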