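import Vale.Agent.P095JS.PartC3
import Vale.Agent.P095U65.Conj

/-! Representations with a prescribed character. -/

open scoped Kronecker Matrix.Norms.L2Operator

namespace Vale.Agent.P095U65

open Vale.Agent.JS

variable {A : Type*} [Semiring A] [Star A] [Algebra ℂ A]

/-- Three nilpotent matrices whose supports add up to one. -/
def Nil {n : Type*} [Fintype n] [DecidableEq n] (x : Fin 3 → Matrix n n ℂ) : Prop :=
  (∀ i, x i * x i = 0) ∧ ∑ i, star (x i) * x i = 1

theorem Nil.map {m n : Type*} [Fintype m] [DecidableEq m] [Fintype n] [DecidableEq n]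
    {x : Fin 3 → Matrix m m ℂ} (h : Nil x) (θ : Matrix m m ℂ →⋆ₐ[ℂ] Matrix n n ℂ) :
    Nil fun i => θ (x i) := by
  refine ⟨fun i => by rw [← map_mul, h.1 i, map_zero], ?_⟩
  rw [← map_one θ, ← h.2, map_sum]
  exact Finset.sum_congr rfl fun i _ => by rw [map_mul, map_star]

/-- `χ` is the character of a representation; if `N` holds its commutant contains a nil triple. -/
def Rep (N : Prop) (χ : A → ℂ) : Prop :=
  ∃ (m : Type) (_ : Fintype m) (_ : DecidableEq m) (ρ : A →⋆ₐ[ℂ] Matrix m m ℂ)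
    (x : Fin 3 → Matrix m m ℂ), (∀ a, (ρ a).trace = χ a) ∧ (∀ i a, Commute (ρ a) (x i)) ∧
      (N → Nil x)

theorem Rep.congr {N : Prop} {χ χ' : A → ℂ} (h : Rep N χ) (e : ∀ a, χ a = χ' a) : Rep N χ' := by
  rwa [← funext e]

theorem Rep.zero (N : Prop) : Rep N fun _ : A => 0 :=
  ⟨Empty, inferInstance, inferInstance,
    { toFun := fun _ => 0
      map_one' := Subsingleton.elim _ _
      map_mul' := fun _ _ => Subsingleton.elim _ _
      map_zero' := rfl
      map_add' := fun _ _ => Subsingleton.elim _ _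
      commutes' := fun _ => Subsingleton.elim _ _
      map_star' := fun _ => Subsingleton.elim _ _ }, 0, fun _ => Matrix.trace_zero _ _,
    fun _ _ => Subsingleton.elim _ _,
    fun _ => ⟨fun _ => Subsingleton.elim _ _, Subsingleton.elim _ _⟩⟩

/-- The block diagonal embedding. -/
def blk (m n : Type) [Fintype m] [DecidableEq m] [Fintype n] [DecidableEq n] :
    Matrix m m ℂ × Matrix n n ℂ →⋆ₐ[ℂ] Matrix (m ⊕ n) (m ⊕ n) ℂ where
  toFun x := Matrix.fromBlocks x.1 0 0 x.2
  map_one' := Matrix.fromBlocks_one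
  map_mul' x y := by simp [Matrix.fromBlocks_multiply]
  map_zero' := Matrix.fromBlocks_zero
  map_add' x y := by simp [Matrix.fromBlocks_add]
  commutes' r := by
    simp only [Algebra.algebraMap_eq_smul_one]
    rw [← Matrix.fromBlocks_one, Matrix.fromBlocks_smul]
    simp
  map_star' x := by
    simp [Matrix.star_eq_conjTranspose, Matrix.fromBlocks_conjTranspose]

theorem trace_blk {m n : Type} [Fintype m] [DecidableEq m] [Fintype n] [DecidableEq n]
    (x : Matrix m m ℂ × Matrix n n ℂ) : (blk m n x).trace = x.1.trace + x.2.trace := by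
  change (Matrix.fromBlocks x.1 0 0 x.2).trace = _
  simp [Matrix.trace, Fintype.sum_sum_type]

theorem Rep.add {N : Prop} {χ χ' : A → ℂ} (h : Rep N χ) (h' : Rep N χ') :
    Rep N fun a => χ a + χ' a := by
  obtain ⟨m, _, _, ρ, x, h1, h2, h3⟩ := h
  obtain ⟨n, _, _, ρ', y, h1', h2', h3'⟩ := h'
  refine ⟨m ⊕ n, inferInstance, inferInstance, (blk m n).comp (ρ.prod ρ'),
    fun i => blk m n (x i, y i), fun a => ?_, fun i a => ?_, fun hN => ⟨fun i => ?_, ?_⟩⟩
  · exact (trace_blk (ρ a, ρ' a)).trans (by rw [h1, h1'])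
  · have : Commute (ρ a, ρ' a) (x i, y i) := Prod.ext (h2 i a).eq (h2' i a).eq
    exact this.map (blk m n)
  · have : (x i, y i) * (x i, y i) = 0 := Prod.ext ((h3 hN).1 i) ((h3' hN).1 i)
    rw [← map_mul, this, map_zero]
  · have : ∑ i, star (x i, y i) * (x i, y i) = 1 := Prod.ext
      (by rw [Prod.fst_sum]; exact (h3 hN).2) (by rw [Prod.snd_sum]; exact (h3' hN).2)
    rw [← map_one (blk m n), ← this, map_sum]
    exact Finset.sum_congr rfl fun i _ => by rw [map_mul, map_star]

theorem Rep.sum {N : Prop} {ι : Type*} (s : Finset ι) {χ : ι → A → ℂ} (h : ∀ i ∈ s, Rep N (χ i)) :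
    Rep N fun a => ∑ i ∈ s, χ i a := by
  classical
  induction s using Finset.induction_on with
  | empty => exact (Rep.zero N).congr fun a => by simp
  | insert i s hi ih =>
    exact ((h i (Finset.mem_insert_self i s)).add
      (ih fun j hj => h j (Finset.mem_insert_of_mem hj))).congr fun a => by
        rw [Finset.sum_insert hi]

theorem Rep.nsmul {N : Prop} {χ : A → ℂ} (h : Rep N χ) (c : ℕ) : Rep N fun a => c * χ a :=
  (Rep.sum (Finset.range c) fun _ _ => h).congr fun a => by simp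

variable {m : Type} [Fintype m] [DecidableEq m]

theorem Rep.of (ρ : A →⋆ₐ[ℂ] Matrix m m ℂ) : Rep False fun a => (ρ a).trace :=
  ⟨m, inferInstance, inferInstance, ρ, 0, fun _ => rfl, fun _ _ => Commute.zero_right _,
    False.elim⟩

/-- The two embeddings into a tensor product. -/
def kl (m d : Type) [Fintype m] [DecidableEq m] [Fintype d] [DecidableEq d] :
    Matrix m m ℂ →⋆ₐ[ℂ] Matrix (m × d) (m × d) ℂ where
  toFun x := x ⊗ₖ (1 : Matrix d d ℂ)
  map_one' := Matrix.one_kronecker_one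
  map_mul' x y := by rw [← Matrix.mul_kronecker_mul, mul_one]
  map_zero' := Matrix.zero_kronecker _
  map_add' x y := Matrix.add_kronecker _ _ _
  commutes' r := by
    simp only [Algebra.algebraMap_eq_smul_one]
    rw [Matrix.smul_kronecker, Matrix.one_kronecker_one]
  map_star' x := by simp [Matrix.star_eq_conjTranspose, Matrix.conjTranspose_kronecker]

def kr (m d : Type) [Fintype m] [DecidableEq m] [Fintype d] [DecidableEq d] :
    Matrix d d ℂ →⋆ₐ[ℂ] Matrix (m × d) (m × d) ℂ where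
  toFun x := (1 : Matrix m m ℂ) ⊗ₖ x
  map_one' := Matrix.one_kronecker_one
  map_mul' x y := by rw [← Matrix.mul_kronecker_mul, mul_one]
  map_zero' := Matrix.kronecker_zero _
  map_add' x y := Matrix.kronecker_add _ _ _
  commutes' r := by
    simp only [Algebra.algebraMap_eq_smul_one]
    rw [Matrix.kronecker_smul, Matrix.one_kronecker_one]
  map_star' x := by simp [Matrix.star_eq_conjTranspose, Matrix.conjTranspose_kronecker]

theorem Rep.kron (ρ : A →⋆ₐ[ℂ] Matrix m m ℂ) {c : ℕ} {y : Fin 3 → Matrix (Fin c) (Fin c) ℂ}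
    (hy : Nil y) : Rep True fun a => c * (ρ a).trace := by
  refine ⟨m × Fin c, inferInstance, inferInstance, (kl m (Fin c)).comp ρ,
    fun i => kr m (Fin c) (y i), fun a => ?_, fun i a => ?_, fun _ => hy.map _⟩
  · change (ρ a ⊗ₖ (1 : Matrix (Fin c) (Fin c) ℂ)).trace = _
    rw [Matrix.trace_kronecker, Matrix.trace_one, Fintype.card_fin, mul_comm]
  · change ρ a ⊗ₖ (1 : Matrix (Fin c) (Fin c) ℂ) * (1 : Matrix m m ℂ) ⊗ₖ y i =
      (1 : Matrix m m ℂ) ⊗ₖ y i * ρ a ⊗ₖ (1 : Matrix (Fin c) (Fin c) ℂ)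
    rw [← Matrix.mul_kronecker_mul, ← Matrix.mul_kronecker_mul, mul_one, mul_one, one_mul, one_mul]

theorem nil_three : Nil (PartC.cyc 1) := ⟨PartC.cyc_mul 1, PartC.sum_cyc 1⟩

theorem nil_two : Nil ![PartC.cyc 0 0, PartC.cyc 0 1, 0] := by
  refine ⟨fun i => ?_, ?_⟩
  · fin_cases i
    · exact PartC.cyc_mul 0 0
    · exact PartC.cyc_mul 0 1
    · exact mul_zero _
  · have h := PartC.sum_cyc 0
    rw [Fin.sum_univ_two] at h
    rw [Fin.sum_univ_three]
    exact (congrArg₂ (· + ·) h (mul_zero _)).trans (add_zero _)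

theorem Rep.nil (ρ : A →⋆ₐ[ℂ] Matrix m m ℂ) : ∀ c : ℕ,
    Rep True fun a => ((c + 2 : ℕ) : ℂ) * (ρ a).trace
  | 0 => Rep.kron ρ nil_two
  | 1 => Rep.kron ρ nil_three
  | c + 2 => ((Rep.nil ρ c).add (Rep.kron ρ nil_two)).congr fun a => by push_cast; ring

theorem Rep.nil' (ρ : A →⋆ₐ[ℂ] Matrix m m ℂ) {c : ℕ} (hc : 2 ≤ c) :
    Rep True fun a => (c : ℂ) * (ρ a).trace := by
  obtain ⟨c, rfl⟩ := Nat.exists_eq_add_of_le' hc
  exact Rep.nil ρ c

/-- Reindexing. -/
def rx {n : Type*} [Fintype n] [DecidableEq n] (e : m ≃ n) :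
    Matrix m m ℂ →⋆ₐ[ℂ] Matrix n n ℂ :=
  { (Matrix.reindexAlgEquiv ℂ ℂ e : Matrix m m ℂ →ₐ[ℂ] Matrix n n ℂ) with
    map_star' := fun _ => rfl }

theorem trace_rx {n : Type*} [Fintype n] [DecidableEq n] (e : m ≃ n) (x : Matrix m m ℂ) :
    (rx e x).trace = x.trace :=
  Equiv.sum_comp e.symm fun i => x i i

theorem Rep.realize {N : Prop} {χ : A → ℂ} (h : Rep N χ) (n : Type*) [Fintype n] [DecidableEq n]
    (hn : χ 1 = Fintype.card n) : ∃ (ρ : A →⋆ₐ[ℂ] Matrix n n ℂ) (x : Fin 3 → Matrix n n ℂ),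
      (∀ a, (ρ a).trace = χ a) ∧ (∀ i a, Commute (ρ a) (x i)) ∧ (N → Nil x) := by
  obtain ⟨m, _, _, ρ, x, h1, h2, h3⟩ := h
  have hc : Fintype.card m = Fintype.card n := by
    have := h1 1
    rw [map_one, Matrix.trace_one, hn] at this
    exact_mod_cast this
  let e := Fintype.equivOfCardEq hc
  exact ⟨(rx e).comp ρ, fun i => rx e (x i), fun a => (trace_rx e _).trans (h1 a),
    fun i a => (h2 i a).map (rx e), fun hN => (h3 hN).map _⟩

theorem dim_unique {p q a b k a' b' k' : ℕ} (hc : Nat.Coprime p q) (ha : a < q) (hb : b < p)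
    (ha' : a' < q) (hb' : b' < p)
    (h : a * p + b * q + k * (p * q) = a' * p + b' * q + k' * (p * q)) :
    a = a' ∧ b = b' ∧ k = k' := by
  have h1 : a = a' := by
    have h2 : a * p ≡ a' * p [MOD q] := by
      have e1 : a * p + b * q + k * (p * q) = a * p + q * (b + k * p) := by ring
      have e2 : a' * p + b' * q + k' * (p * q) = a' * p + q * (b' + k' * p) := by ring
      have := congrArg (· % q) h
      simp only [e1, e2, Nat.add_mul_mod_self_left] at this
      exact this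
    exact Nat.ModEq.eq_of_lt_of_lt (Nat.ModEq.cancel_right_of_coprime hc.symm h2) ha ha'
  have h2 : b = b' := by
    have h2 : b * q ≡ b' * q [MOD p] := by
      have e1 : a * p + b * q + k * (p * q) = b * q + p * (a + k * q) := by ring
      have e2 : a' * p + b' * q + k' * (p * q) = b' * q + p * (a' + k' * q) := by ring
      have := congrArg (· % p) h
      simp only [e1, e2, Nat.add_mul_mod_self_left] at this
      exact this
    exact Nat.ModEq.eq_of_lt_of_lt (Nat.ModEq.cancel_right_of_coprime hc h2) hb hb'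
  subst h1 h2
  refine ⟨rfl, rfl, Nat.eq_of_mul_eq_mul_right (Nat.mul_pos (by omega) (by omega) : 0 < p * q) ?_⟩
  omega

end Vale.Agent.P095U65
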