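import Vale.Agent.P095U27.Sort
import Vale.Agent.P095U65.Char
import Vale.Agent.P095U65.Std

/-! The standard family of representations of a dimension drop algebra in a fixed dimension. -/

open scoped Kronecker Matrix.Norms.L2Operator unitInterval

namespace Vale.Agent.P095U65

open Vale.Agent.JS Vale.Agent.JS.PartB Vale.Agent.JS.PartD
open Vale.Agent.JS.Hat (clamp)

variable {p q : ℕ} {n : Type*} [Fintype n] [DecidableEq n]

theorem unitary_DD {π π' : DD p q →⋆ₐ[ℂ] Matrix n n ℂ} (ht : ∀ a, (π a).trace = (π' a).trace) :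
    ∃ v ∈ unitary (Matrix n n ℂ), ∀ a, π a * v = v * π' a :=
  exists_unitary (A := DD p q) ht

theorem path_DD {π π' : DD p q →⋆ₐ[ℂ] Matrix n n ℂ} (ht : ∀ a, (π a).trace = (π' a).trace) :
    IsPathConnected {v : unitary (Matrix n n ℂ) | ∀ a, π a * v = v * π' a} :=
  isPathConnected_inter (A := DD p q) ht

theorem eq_conj {v x y : Matrix n n ℂ} (hv : v ∈ unitary (Matrix n n ℂ)) (h : x * v = v * y) :
    x = v * y * star v := by
  rw [← h, mul_assoc, (Unitary.mem_iff.1 hv).2, mul_one]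

/-- A real function as a central element. -/
noncomputable def sr (g : C(I, ℝ)) : DD p q := sc ⟨fun t => (g t : ℂ), by fun_prop⟩

theorem trace_ev_sr (g : C(I, ℝ)) (t : I) : (ev t (sr g : DD p q)).trace = p * q * g t := by
  rw [sr, ev_sc, Matrix.trace_smul, Matrix.trace_one]
  simp [mul_comm]

theorem chi_sr (hp : 0 < p) (hq : 0 < q) (a b : ℕ) {k : ℕ} (t : Fin k → I) (g : C(I, ℝ)) :
    chi hp hq a b t (sr g) = ((a * p * g 0 + b * q * g 1 + p * q * ∑ j, g (t j) : ℝ) : ℂ) := by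
  have hp' : (p : ℂ) ≠ 0 := by exact_mod_cast hp.ne'
  have hq' : (q : ℂ) ≠ 0 := by exact_mod_cast hq.ne'
  have h0 : (lam hq (sr g : DD p q)).trace = p * g 0 := by
    apply mul_left_cancel₀ hq'
    rw [← trace_ev_zero hq, trace_ev_sr]; ring
  have h1 : (rho hp (sr g : DD p q)).trace = q * g 1 := by
    apply mul_left_cancel₀ hp'
    rw [← trace_ev_one hp, trace_ev_sr]; ring
  rw [chi, h0, h1]
  simp only [trace_ev_sr]
  push_cast
  rw [Finset.mul_sum]; ring

theorem chi_one (hp : 0 < p) (hq : 0 < q) (a b : ℕ) {k : ℕ} (t : Fin k → I) :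
    chi hp hq a b t 1 = ((a * p + b * q + k * (p * q) : ℕ) : ℂ) := by
  simp [chi, Matrix.trace_one]

/-- The ramp functions. -/
noncomputable def rmp (M : ℕ) (K : ℝ) : C(I, ℝ) :=
  ⟨fun t => clamp (M * (t : ℝ) - K), by unfold clamp; fun_prop⟩

theorem rmp_zero (M : ℕ) {K : ℝ} (h : 0 ≤ K) : rmp M K 0 = 0 :=
  Hat.clamp_of_nonpos (by simpa using h)

theorem rmp_one {M : ℕ} {K : ℝ} (h : K + 1 ≤ M) : rmp M K 1 = 1 := by
  change max 0 (min 1 ((M : ℝ) * ((1 : I) : ℝ) - K)) = 1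
  rw [min_eq_left (by simp; linarith), max_eq_right zero_le_one]

theorem sum_lt (hp : 0 < p) (hq : 0 < q) {a b k M K : ℕ} {t t' : Fin k → I} (hK : K + 2 ≤ M)
    (h : (chi hp hq a b t' (sr (rmp M (K + 1)))).re < (chi hp hq a b t (sr (rmp M K))).re) :
    ∑ j, clamp (M * (t' j : ℝ) - (K + 1)) < ∑ j, clamp (M * (t j : ℝ) - K) := by
  have hK' : (K : ℝ) + 2 ≤ M := by exact_mod_cast hK
  rw [chi_sr, chi_sr, Complex.ofReal_re, Complex.ofReal_re, rmp_zero M (by positivity),
    rmp_zero M (by positivity), rmp_one (by linarith), rmp_one (by linarith)] at h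
  have h1 : (0 : ℝ) < p * q := by positivity
  exact lt_of_mul_lt_mul_left (lt_of_add_lt_add_left h) h1.le

/-- `f` varies by at most `c` on intervals of length `d`. -/
def Osc (f : DD p q) (d c : ℝ) : Prop :=
  0 ≤ c ∧ ∀ s t : I, |(s : ℝ) - t| ≤ d → ‖ev s f - ev t f‖ ≤ c

/-- The algebra through which the standard representations factor. -/
abbrev UU (p q k : ℕ) := Matrix (Fin p) (Fin p) ℂ × Matrix (Fin q) (Fin q) ℂ × (Fin k → MM p q)

noncomputable def emb (hp : 0 < p) (hq : 0 < q) {k : ℕ} (t : Fin k → I) :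
    DD p q →⋆ₐ[ℂ] UU p q k :=
  (lam hq).prod ((rho hp).prod
    { toFun := fun f j => ev (t j) f
      map_one' := rfl
      map_mul' := fun _ _ => rfl
      map_zero' := rfl
      map_add' := fun _ _ => rfl
      commutes' := fun _ => rfl
      map_star' := fun _ => rfl })

theorem emb_apply (hp : 0 < p) (hq : 0 < q) {k : ℕ} (t : Fin k → I) (f : DD p q) :
    emb hp hq t f = (lam hq f, rho hp f, fun j => ev (t j) f) := rfl

theorem exists_sigma (a b k : ℕ) (h : a * p + b * q + k * (p * q) = Fintype.card n) :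
    ∃ S : UU p q k →⋆ₐ[ℂ] Matrix n n ℂ,
      ∀ x, (S x).trace = a * x.1.trace + b * x.2.1.trace + ∑ j, (x.2.2 j).trace := by
  have h1 := (Rep.of (StarAlgHom.fst ℂ (Matrix (Fin p) (Fin p) ℂ)
    (Matrix (Fin q) (Fin q) ℂ × (Fin k → MM p q)))).nsmul a
  have h2 := (Rep.of ((StarAlgHom.fst ℂ (Matrix (Fin q) (Fin q) ℂ) (Fin k → MM p q)).comp
    (StarAlgHom.snd ℂ (Matrix (Fin p) (Fin p) ℂ) _))).nsmul b
  have h3 := Rep.sum Finset.univ fun (j : Fin k) _ =>
    Rep.of ((Pi.evalStarAlgHom ℂ (fun _ : Fin k => MM p q) j).comp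
      ((StarAlgHom.snd ℂ (Matrix (Fin q) (Fin q) ℂ) (Fin k → MM p q)).comp
        (StarAlgHom.snd ℂ (Matrix (Fin p) (Fin p) ℂ) _)))
  obtain ⟨S, -, hS, -⟩ := ((h1.add h2).add h3).realize n (by
    simp only [map_one, Matrix.trace_one, ← h]
    simp)
  exact ⟨S, hS⟩

theorem exists_family (hp : 0 < p) (hq : 0 < q) (hc : Nat.Coprime p q)
    (π₀ : DD p q →⋆ₐ[ℂ] Matrix n n ℂ) :
    ∃ (a b k : ℕ) (R : (Fin k → I) → DD p q →⋆ₐ[ℂ] Matrix n n ℂ),
      (∀ t f, (R t f).trace = chi hp hq a b t f) ∧ (∀ f, Continuous fun t => R t f) ∧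
      (∀ t t' f d c, Osc f d c → (∀ j, |(t j : ℝ) - t' j| ≤ d) → ‖R t f - R t' f‖ ≤ c) ∧
      ∀ π : DD p q →⋆ₐ[ℂ] Matrix n n ℂ, ∃ t : Fin k → I, Monotone t ∧
        ∀ f, (π f).trace = chi hp hq a b t f := by
  have hdim : ∀ (π : DD p q →⋆ₐ[ℂ] Matrix n n ℂ) (a b k : ℕ) (t : Fin k → I),
      (∀ f, (π f).trace = chi hp hq a b t f) → a * p + b * q + k * (p * q) = Fintype.card n := by
    intro π a b k t h
    have h1 := h 1
    rw [map_one, Matrix.trace_one, chi_one] at h1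
    exact_mod_cast h1.symm
  obtain ⟨a, b, k, t₀, ha, hb, -, h₀⟩ := exists_chi hp hq π₀
  obtain ⟨S, hS⟩ := exists_sigma a b k (hdim π₀ a b k t₀ h₀)
  have hn : ∀ x, ‖S x‖ ≤ ‖x‖ := fun x =>
    NonUnitalStarAlgHom.norm_apply_le (S : UU p q k →⋆ₙₐ[ℂ] Matrix n n ℂ) x
  refine ⟨a, b, k, fun t => S.comp (emb hp hq t), fun t f => hS _, fun f => ?_,
    fun t t' f d c hf h => ?_, fun π => ?_⟩
  · have h1 : Continuous S :=
      AddMonoidHomClass.continuous_of_bound S 1 fun x => by rw [one_mul]; exact hn x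
    refine h1.comp (continuous_const.prodMk (continuous_const.prodMk (continuous_pi fun j => ?_)))
    exact (f : CM p q).continuous.comp (continuous_apply j)
  · change ‖S (emb hp hq t f) - S (emb hp hq t' f)‖ ≤ c
    rw [← map_sub S]
    refine (hn _).trans ?_
    rw [emb_apply, emb_apply, Prod.mk_sub_mk, Prod.mk_sub_mk, sub_self, sub_self, Prod.norm_mk,
      Prod.norm_mk, norm_zero, norm_zero]
    exact max_le hf.1 (max_le hf.1 ((pi_norm_le_iff_of_nonneg hf.1).2 fun j => hf.2 _ _ (h j)))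
  · obtain ⟨a', b', k', t, ha', hb', ht, h⟩ := exists_chi hp hq π
    obtain ⟨rfl, rfl, rfl⟩ := dim_unique hc ha hb ha' hb'
      ((hdim π₀ _ _ _ _ h₀).trans (hdim π _ _ _ _ h).symm)
    exact ⟨t, ht, h⟩

theorem chi_inj (hp : 0 < p) (hq : 0 < q) {a b k : ℕ} {t t' : Fin k → I} (ht : Monotone t)
    (ht' : Monotone t') (h : ∀ f, chi hp hq a b t' f = chi hp hq a b t f) : t' = t := by
  refine P095U27.sorted_eq ht ht' fun g => ?_
  have h1 := h (sr g)
  rw [chi_sr, chi_sr, Complex.ofReal_inj, add_right_inj] at h1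
  exact mul_left_cancel₀ (by positivity) h1

theorem Nil.conj {x : Fin 3 → Matrix n n ℂ} (h : Nil x) {v : Matrix n n ℂ}
    (hv : v ∈ unitary (Matrix n n ℂ)) : Nil fun i => v * x i * star v := by
  have h1 := Unitary.mem_iff.1 hv
  have key : ∀ y z : Matrix n n ℂ, v * y * star v * (v * z * star v) = v * (y * z) * star v :=
    fun y z => by
      calc _ = v * y * (star v * v) * z * star v := by simp only [mul_assoc]
        _ = _ := by rw [h1.1, mul_one]; simp only [mul_assoc]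
  refine ⟨fun i => by rw [key, h.1 i, mul_zero, zero_mul], ?_⟩
  have h2 : ∀ i, star (v * x i * star v) * (v * x i * star v) = v * (star (x i) * x i) * star v :=
    fun i => by rw [← key, star_mul, star_mul, star_star, mul_assoc v (star (x i))]
  simp only [h2]
  rw [← Finset.sum_mul, ← Finset.mul_sum, h.2, mul_one, h1.2]

/-- A representation whose spectrum is dense enough almost commutes with a nil triple. -/
theorem exists_nil (hp : 0 < p) (hq : 0 < q) (hc : Nat.Coprime p q)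
    (π : DD p q →⋆ₐ[ℂ] Matrix n n ℂ) {L : ℕ} (hL : 2 ≤ L)
    (h : ∀ K : ℕ, K + 2 ≤ 4 * L →
      (π (sr (rmp (4 * L) (K + 1)))).trace.re < (π (sr (rmp (4 * L) K))).trace.re) :
    ∃ x : Fin 3 → Matrix n n ℂ, Nil x ∧ ∀ f c, Osc f (1 / L) c →
      ∃ y, (∀ i, Commute y (x i)) ∧ ‖π f - y‖ ≤ c := by
  classical
  obtain ⟨a, b, k, R, hR, -, hRn, hπ⟩ := exists_family hp hq hc π
  obtain ⟨t, -, ht⟩ := hπ π
  obtain ⟨r, Λ, c, h0, h1, hc2, hr, hsum⟩ := P095U27.exists_round hL t fun K hK =>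
    sum_lt hp hq hK (by rw [← ht, ← ht]; exact h K hK)
  have h10 : (1 : I) ∈ Λ.erase 0 := Finset.mem_erase.2 ⟨one_ne_zero, h1⟩
  have hrep : Rep True (chi hp hq a b r) := by
    have e0 := Rep.nil' (lam hq : DD p q →⋆ₐ[ℂ] _) (c := a + c 0 * q) (by nlinarith [hc2 0 h0])
    have e1 := Rep.nil' (rho hp : DD p q →⋆ₐ[ℂ] _) (c := b + c 1 * p) (by nlinarith [hc2 1 h1])
    have e2 := Rep.sum ((Λ.erase 0).erase 1) fun l hl =>
      Rep.nil' (ev l : DD p q →⋆ₐ[ℂ] _)
        (hc2 l (Finset.mem_of_mem_erase (Finset.mem_of_mem_erase hl)))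
    refine ((e0.add e1).add e2).congr fun f => ?_
    rw [chi, hsum fun l => (ev l f).trace, ← Finset.add_sum_erase Λ _ h0,
      ← Finset.add_sum_erase _ _ h10, trace_ev_zero hq, trace_ev_one hp]
    push_cast
    ring
  obtain ⟨ρ, x, hρ, hx, hnil⟩ := hrep.realize n (by rw [← hR, map_one, Matrix.trace_one])
  obtain ⟨v, hv, hvπ⟩ := unitary_DD (π := π) (π' := R t) fun f => by rw [ht, hR]
  obtain ⟨w, hw, hwπ⟩ := unitary_DD (π := R r) (π' := ρ) fun f => by rw [hρ, hR]
  refine ⟨fun i => v * w * x i * star (v * w), (hnil trivial).conj (mul_mem hv hw),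
    fun f d hf => ⟨v * w * ρ f * star (v * w), fun i => ?_, ?_⟩⟩
  · have h2 := (Unitary.mem_iff.1 (mul_mem hv hw)).1
    calc v * w * ρ f * star (v * w) * (v * w * x i * star (v * w))
        = v * w * (ρ f * (star (v * w) * (v * w)) * x i) * star (v * w) := by
          simp only [mul_assoc]
      _ = v * w * (x i * (star (v * w) * (v * w)) * ρ f) * star (v * w) := by
          rw [h2, mul_one, mul_one, (hx i f).eq]
      _ = _ := by simp only [mul_assoc]
  · have h2 : v * w * ρ f * star (v * w) = v * R r f * star v := by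
      rw [eq_conj hw (hwπ f), star_mul]; simp only [mul_assoc]
    rw [h2, eq_conj hv (hvπ f), norm_conj_sub hv]
    exact hRn t r f _ d hf fun j => by rw [abs_sub_comm]; exact hr j

end Vale.Agent.P095U65
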