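import Mathlib

/-! A continuous section of an open set which contains a compact set with connected fibres. -/

open Set Filter Topology

namespace Vale.Agent.P095U65

variable {X : Type*} [TopologicalSpace X] [LocallyPathConnectedSpace X]

/-- Near `s₀` all fibres of `K` lie in one path connected set `V`, and `V` lies in all fibres
of `E`. -/
theorem local_box {E K : Set (ℝ × X)} (hE : IsOpen E) (hK : IsCompact K) (hKE : K ⊆ E) {s₀ : ℝ}
    (hc : IsPathConnected {x | (s₀, x) ∈ K}) :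
    ∃ (η : ℝ) (V : Set X), 0 < η ∧ IsPathConnected V ∧
      ∀ s, |s - s₀| < η → (∀ x, (s, x) ∈ K → x ∈ V) ∧ ∀ x ∈ V, (s, x) ∈ E := by
  have h1 : IsCompact {x | (s₀, x) ∈ K} := by
    have h2 : IsCompact (K ∩ {z | z.1 = s₀}) :=
      hK.inter_right (isClosed_eq continuous_fst continuous_const)
    have h3 : {x | (s₀, x) ∈ K} = Prod.snd '' (K ∩ {z | z.1 = s₀}) := by
      ext x
      constructor
      · intro hx
        exact ⟨(s₀, x), ⟨hx, rfl⟩, rfl⟩
      · rintro ⟨⟨s, y⟩, ⟨hy, hs⟩, rfl⟩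
        have hs' : s = s₀ := hs
        subst hs'
        exact hy
    rw [h3]
    exact h2.image continuous_snd
  obtain ⟨U, W, hU, hW, hsU, hKW, hUW⟩ := generalized_tube_lemma (isCompact_singleton (x := s₀)) h1
    hE (by
      rintro ⟨s, x⟩ ⟨hs, hx⟩
      have hs' : s = s₀ := hs
      subst hs'
      exact hKE hx)
  obtain ⟨x₀, hx₀⟩ := hc.nonempty
  have hV : IsOpen (pathComponentIn W x₀) := hW.pathComponentIn x₀
  have hsub : {x | (s₀, x) ∈ K} ⊆ pathComponentIn W x₀ := hc.subset_pathComponentIn hx₀ hKW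
  have hbad : IsClosed (Prod.fst '' (K ∩ {z | z.2 ∉ pathComponentIn W x₀})) :=
    ((hK.inter_right (hV.isClosed_compl.preimage continuous_snd)).image continuous_fst).isClosed
  have hn : U ∩ (Prod.fst '' (K ∩ {z | z.2 ∉ pathComponentIn W x₀}))ᶜ ∈ 𝓝 s₀ := by
    refine (hU.inter hbad.isOpen_compl).mem_nhds ⟨hsU rfl, ?_⟩
    rintro ⟨⟨s, y⟩, ⟨hy, hy'⟩, hs⟩
    have hs' : s = s₀ := hs
    subst hs'
    exact hy' (hsub hy)
  obtain ⟨η, hη, hball⟩ := Metric.mem_nhds_iff.1 hn
  refine ⟨η, pathComponentIn W x₀, hη, isPathConnected_pathComponentIn (hKW hx₀), fun s hs => ?_⟩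
  have hs' := hball (show s ∈ Metric.ball s₀ η by rwa [Metric.mem_ball, Real.dist_eq])
  refine ⟨fun x hx => ?_, fun x hx => hUW ⟨hs'.1, pathComponentIn_subset hx⟩⟩
  by_contra hx'
  exact hs'.2 ⟨(s, x), ⟨hx, hx'⟩, rfl⟩

/-- If `K ⊆ E ⊆ ℝ × X`, `K` is compact with path connected fibres over `[0, 1]` and `E` is open,
then `E` has a continuous section over `[0, 1]` with a given starting point in `K`. -/
theorem exists_section {E K : Set (ℝ × X)} (hE : IsOpen E) (hK : IsCompact K) (hKE : K ⊆ E)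
    (hc : ∀ s ∈ Icc (0 : ℝ) 1, IsPathConnected {x | (s, x) ∈ K}) {x₀ : X} (hx₀ : (0, x₀) ∈ K) :
    ∃ u : ℝ → X, Continuous u ∧ u 0 = x₀ ∧ ∀ s ∈ Icc (0 : ℝ) 1, (s, u s) ∈ E := by
  let P : ℝ → Prop := fun s => ∃ u : ℝ → X, Continuous u ∧ u 0 = x₀ ∧
    (∀ r ∈ Icc 0 s, (r, u r) ∈ E) ∧ (s, u s) ∈ K
  have hP0 : P 0 := ⟨fun _ => x₀, continuous_const, rfl, fun r hr => by
    have : r = 0 := le_antisymm hr.2 hr.1
    rw [this]; exact hKE hx₀, hx₀⟩
  have step : ∀ s₀ ∈ Icc (0 : ℝ) 1, ∃ η : ℝ, 0 < η ∧ ∀ s s', 0 ≤ s → s < s' → s' ≤ 1 →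
      |s - s₀| < η → |s' - s₀| < η → P s → P s' := by
    intro s₀ hs₀
    obtain ⟨η, V, hη, hV, h⟩ := local_box hE hK hKE (hc s₀ hs₀)
    refine ⟨η, hη, fun s s' h0 hss h1 hs hs' ⟨u, hu, hu0, huE, huK⟩ => ?_⟩
    obtain ⟨y, hy⟩ := (hc s' ⟨h0.trans hss.le, h1⟩).nonempty
    obtain ⟨γ, hγ⟩ := hV.joinedIn (u s) ((h s hs).1 _ huK) y ((h s' hs').1 _ hy)
    have hpos : 0 < s' - s := sub_pos.2 hss
    refine ⟨fun r => if r ≤ s then u r else γ.extend ((r - s) / (s' - s)), ?_, ?_, ?_, ?_⟩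
    · refine Continuous.if_le hu (γ.continuous_extend.comp (by fun_prop)) continuous_id
        continuous_const fun r hr => ?_
      have hr' : r = s := hr
      rw [hr', sub_self, zero_div, Path.extend_zero]
    · simp only [if_pos h0, hu0]
    · intro r hr
      by_cases hrs : r ≤ s
      · simp only [if_pos hrs]
        exact huE r ⟨hr.1, hrs⟩
      · simp only [if_neg hrs]
        have hr1 : |r - s₀| < η := by
          rw [abs_lt] at hs hs' ⊢
          constructor <;> linarith [hs.1, hs'.2, hr.2, not_le.1 hrs]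
        refine (h r hr1).2 _ ?_
        have hm : γ.extend ((r - s) / (s' - s)) ∈ range γ := by
          rw [← Path.extend_range]; exact mem_range_self _
        obtain ⟨t, ht⟩ := hm
        rw [← ht]
        exact hγ t
    · simp only [if_neg (not_le.2 hss), div_self hpos.ne', Path.extend_one]
      exact hy
  let S : Set ℝ := {s | ∀ r ∈ Icc 0 s, P r}
  have hS : Icc (0 : ℝ) 1 ⊆ S := by
    refine IsClosed.Icc_subset_of_forall_exists_gt ?_ ?_ ?_
    · refine isClosed_of_closure_subset fun s₀ hs₀ => ?_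
      have h01 : s₀ ∈ Icc (0 : ℝ) 1 :=
        closure_minimal inter_subset_right isClosed_Icc hs₀
      have hlt : ∀ r, 0 ≤ r → r < s₀ → P r := fun r hr0 hr => by
        obtain ⟨s, hs, hs'⟩ := mem_closure_iff.1 hs₀ (Ioi r) isOpen_Ioi hr
        exact hs'.1 r ⟨hr0, le_of_lt hs⟩
      refine ⟨fun r hr => ?_, h01⟩
      rcases hr.2.lt_or_eq with h | h
      · exact hlt r hr.1 h
      · rw [h]
        rcases h01.1.lt_or_eq with h0 | h0
        · obtain ⟨η, hη, hstep⟩ := step s₀ h01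
          have hm : max 0 (s₀ - η / 2) < s₀ := max_lt h0 (by linarith)
          refine hstep (max 0 (s₀ - η / 2)) s₀ (le_max_left _ _) hm h01.2 ?_ (by simpa using hη)
            (hlt _ (le_max_left _ _) hm)
          rw [abs_lt]
          constructor <;> linarith [le_max_right 0 (s₀ - η / 2)]
        · rw [← h0]; exact hP0
    · intro r hr
      have : r = 0 := le_antisymm hr.2 hr.1
      rw [this]; exact hP0
    · rintro x ⟨hx, hx0, hx1⟩ y hy
      obtain ⟨η, hη, hstep⟩ := step x ⟨hx0, hx1.le⟩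
      have hm : x < min y (min 1 (x + η / 2)) := lt_min hy (lt_min hx1 (by linarith))
      refine ⟨min y (min 1 (x + η / 2)), fun r hr => ?_, hm, min_le_left _ _⟩
      rcases le_or_gt r x with h | h
      · exact hx r ⟨hr.1, h⟩
      · have h1 : r ≤ 1 := hr.2.trans ((min_le_right _ _).trans (min_le_left _ _))
        have h2 : r ≤ x + η / 2 := hr.2.trans ((min_le_right _ _).trans (min_le_right _ _))
        refine hstep x r hx0 h h1 (by simpa using hη) ?_ (hx x ⟨hx0, le_rfl⟩)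
        rw [abs_lt]
        constructor <;> linarith
  obtain ⟨u, hu, hu0, huE, -⟩ := hS ⟨zero_le_one, le_rfl⟩ 1 ⟨zero_le_one, le_rfl⟩
  exact ⟨u, hu, hu0, huE⟩

end Vale.Agent.P095U65
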