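import Vale.Agent.P095JS.PartE2
import Vale.Agent.P095U65.Fam
import Vale.Agent.P095U65.Sec

/-! A homomorphism of dimension drop algebras whose fibres have almost the same character is
almost constant up to a path of unitaries. -/

open Set
open scoped Kronecker Matrix.Norms.L2Operator unitInterval

namespace Vale.Agent.P095U65

open Vale.Agent.JS Vale.Agent.JS.PartB Vale.Agent.JS.PartD Vale.Agent.JS.PartE

variable {p q P Q : ℕ}

theorem compact_unitary (n : Type*) [Fintype n] [DecidableEq n] :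
    CompactSpace (unitary (Matrix n n ℂ)) := by
  have := FiniteDimensional.proper ℂ (Matrix n n ℂ)
  refine isCompact_iff_compactSpace.1
    ((isCompact_closedBall (0 : Matrix n n ℂ) ‖(1 : Matrix n n ℂ)‖).of_isClosed_subset
      isClosed_unitary fun v hv => ?_)
  rw [mem_closedBall_zero_iff, ← CStarRing.norm_mem_unitary_mul 1 hv, mul_one]

/-- The characters of all fibres of `φ` are close to each other on the ramp functions. -/
def Close (φ : DD p q →⋆ₐ[ℂ] DD P Q) (M : ℕ) : Prop :=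
  ∀ (s s' : I) (K : ℕ), K + 2 ≤ M →
    (ev s' (φ (sr (rmp M (K + 1))))).trace.re < (ev s (φ (sr (rmp M K)))).trace.re

theorem exists_collapse (hp : 0 < p) (hq : 0 < q) (hc : Nat.Coprime p q)
    (φ : DD p q →⋆ₐ[ℂ] DD P Q) {M : ℕ} (hM : 0 < M) (H : Close φ M) (F : Finset (DD p q)) {c : ℝ}
    (hF : ∀ f ∈ F, Osc f (3 / M) c) {ε : ℝ} (hε : 0 < ε) :
    ∃ u : CM P Q, (∀ s, u s ∈ unitary (MM P Q)) ∧ u 0 = 1 ∧
      ∀ f ∈ F, ∀ s, ‖ev s (φ f) - u s * ev 0 (φ f) * star (u s)‖ ≤ c + ε := by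
  have := compact_unitary (Fin P × Fin Q)
  let π : I → DD p q →⋆ₐ[ℂ] MM P Q := fun s => (ev s).comp φ
  have hπc : ∀ f, Continuous fun s => π s f := fun f => (φ f : CM P Q).continuous
  obtain ⟨a, b, k, R, hR, hRc, hRn, hπ⟩ := exists_family hp hq hc (π 0)
  choose t ht hπt using fun s => hπ (π s)
  have hclose : ∀ s s' j, |(t s j : ℝ) - t s' j| ≤ 3 / M := fun s s' j => by
    have h : ∀ s s', (t s' j : ℝ) ≤ t s j + 3 / M := fun s s' =>
      P095U27.sorted_le hM (ht s) (ht s') (fun K hK =>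
        (sum_lt hp hq hK (by rw [← hπt, ← hπt]; exact H s s' K hK)).le) j
    rw [abs_le]
    constructor <;> linarith [h s s', h s' s]
  let pj : ℝ → I := projIcc 0 1 zero_le_one
  have hpj : Continuous pj := continuous_projIcc
  let K' : Set ((ℝ × unitary (MM P Q)) × (Fin k → I)) := {z | z.1.1 ∈ Icc (0 : ℝ) 1 ∧
    Monotone z.2 ∧ ∀ f, π (pj z.1.1) f * z.1.2 = z.1.2 * R z.2 f}
  have hv : Continuous fun z : (ℝ × unitary (MM P Q)) × (Fin k → I) => (z.1.2 : MM P Q) :=
    continuous_subtype_val.comp (continuous_snd.comp continuous_fst)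
  have hK' : IsCompact K' := by
    refine ((isCompact_Icc (a := (0 : ℝ)) (b := 1)).prod isCompact_univ |>.prod
      isCompact_univ).of_isClosed_subset ?_ fun z hz => ⟨⟨hz.1, trivial⟩, trivial⟩
    refine (isClosed_Icc.preimage (continuous_fst.comp continuous_fst)).inter
      ((isClosed_monotone.preimage continuous_snd).inter ?_)
    have e : {z : (ℝ × unitary (MM P Q)) × (Fin k → I) |
        ∀ f, π (pj z.1.1) f * z.1.2 = z.1.2 * R z.2 f} =
        ⋂ f, {z | π (pj z.1.1) f * z.1.2 = z.1.2 * R z.2 f} := by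
      ext z; simp
    change IsClosed {z : (ℝ × unitary (MM P Q)) × (Fin k → I) |
        ∀ f, π (pj z.1.1) f * z.1.2 = z.1.2 * R z.2 f}
    rw [e]
    exact isClosed_iInter fun f => isClosed_eq
      (((hπc f).comp (hpj.comp (continuous_fst.comp continuous_fst))).mul hv)
      (hv.mul ((hRc f).comp continuous_snd))
  have hKt : ∀ z ∈ K', z.2 = t (pj z.1.1) := fun z hz =>
    chi_inj hp hq (ht _) hz.2.1 fun f => by
      rw [← hπt, ← hR, eq_conj z.1.2.2 (hz.2.2 f), Matrix.trace_mul_cycle,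
        (Unitary.mem_iff.1 z.1.2.2).1, one_mul]
  let E : Set (ℝ × unitary (MM P Q)) :=
    ⋂ f ∈ F, {z | ‖π (pj z.1) f - z.2 * R (t 0) f * star (z.2 : MM P Q)‖ < c + ε}
  have hv' : Continuous fun z : ℝ × unitary (MM P Q) => (z.2 : MM P Q) :=
    continuous_subtype_val.comp continuous_snd
  have hE : IsOpen E := isOpen_biInter_finset fun f _ => isOpen_lt
    (((hπc f).comp (hpj.comp continuous_fst)).sub ((hv'.mul continuous_const).mul hv'.star)).norm
    continuous_const
  obtain ⟨v₀, hv₀, hv₀π⟩ := unitary_DD (π := π 0) (π' := R (t 0)) fun f => by rw [hπt, hR]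
  have hpj0 : pj 0 = 0 := projIcc_left _
  obtain ⟨u, hu, hu0, huE⟩ := exists_section (K := Prod.fst '' K') (x₀ := ⟨v₀, hv₀⟩) hE
    (hK'.image continuous_fst) (by
      rintro _ ⟨z, hz, rfl⟩
      refine mem_iInter₂.2 fun f hf => ?_
      change ‖π (pj z.1.1) f - z.1.2 * R (t 0) f * star (z.1.2 : MM P Q)‖ < c + ε
      rw [eq_conj z.1.2.2 (hz.2.2 f), norm_conj_sub z.1.2.2, hKt z hz]
      exact (hRn _ _ f _ c (hF f hf) (hclose _ _)).trans_lt (lt_add_of_pos_right c hε))
    (fun s hs => by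
      have e : {x | (s, x) ∈ Prod.fst '' K'} =
          {v : unitary (MM P Q) | ∀ f, π (pj s) f * v = v * R (t (pj s)) f} := by
        ext v
        constructor
        · rintro ⟨z, hz, hz1⟩ f
          have h1 := hz.2.2 f
          rw [hKt z hz, hz1] at h1
          exact h1
        · intro h
          exact ⟨((s, v), t (pj s)), ⟨hs, ht _, h⟩, rfl⟩
      rw [e]
      exact path_DD fun f => by rw [hπt, hR])
    ⟨((0, ⟨v₀, hv₀⟩), t 0), ⟨left_mem_Icc.2 zero_le_one, ht 0, fun f => by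
      change π (pj 0) f * v₀ = v₀ * R (t 0) f
      rw [hpj0, hv₀π]⟩, rfl⟩
  refine ⟨⟨fun s => (u s : MM P Q) * star v₀,
    (continuous_subtype_val.comp (hu.comp continuous_subtype_val)).mul continuous_const⟩,
    fun s => mul_mem (u s).2 (Unitary.star_mem hv₀), ?_, fun f hf s => ?_⟩
  · change (u 0 : MM P Q) * star v₀ = 1
    rw [hu0]
    exact (Unitary.mem_iff.1 hv₀).2
  · have h1 : ‖π (pj s) f - u s * R (t 0) f * star (u s : MM P Q)‖ < c + ε :=
      mem_iInter₂.1 (huE s s.2) f hf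
    have h2 : pj s = s := projIcc_val _ s
    have h3 : (u s : MM P Q) * star v₀ * π 0 f * star ((u s : MM P Q) * star v₀) =
        u s * R (t 0) f * star (u s : MM P Q) := by
      rw [eq_conj hv₀ (hv₀π f), star_mul, star_star]
      calc _ = (u s : MM P Q) * (star v₀ * v₀) * R (t 0) f * (star v₀ * v₀) *
            star (u s : MM P Q) := by simp only [mul_assoc]
        _ = _ := by rw [(Unitary.mem_iff.1 hv₀).1, mul_one, mul_one]
    rw [h2, ← h3] at h1
    exact h1.le

/-- Almost central partitions of unity by nilpotents. -/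
theorem exists_elements (hp : 0 < p) (hq : 0 < q) (hc : Nat.Coprime p q) (hP : 0 < P) (hQ : 0 < Q)
    (φ : DD p q →⋆ₐ[ℂ] DD P Q) {L : ℕ} (hL : 2 ≤ L) (H : Close φ (4 * L)) {u : CM P Q}
    (hu : ∀ s, u s ∈ unitary (MM P Q)) (hu0 : u 0 = 1) :
    ∃ z : Fin 3 ⊕ Fin 3 → DD P Q, (∀ i, z i * z i = 0) ∧ ∑ i, star (z i) * z i = 1 ∧
      ∀ f c δ, Osc f (1 / L) c → 0 ≤ δ →
        (∀ s, ‖ev s (φ f) - u s * ev 0 (φ f) * star (u s)‖ ≤ δ) →
        ∀ i, ‖(z i : CM P Q) * φ f - φ f * (z i : CM P Q)‖ ≤ 2 * (2 * δ + c) := by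
  classical
  obtain ⟨x, hx, hxc⟩ := exists_nil hp hq hc ((lam hQ).comp φ) hL fun K hK => by
    have h := H 0 0 K hK
    rw [trace_ev_zero hQ, trace_ev_zero hQ, ← Complex.ofReal_natCast, Complex.re_ofReal_mul,
      Complex.re_ofReal_mul] at h
    exact lt_of_mul_lt_mul_left h (by positivity)
  obtain ⟨y, hy, hyc⟩ := exists_nil hp hq hc ((rho hP).comp φ) hL fun K hK => by
    have h := H 1 1 K hK
    rw [trace_ev_one hP, trace_ev_one hP, ← Complex.ofReal_natCast, Complex.re_ofReal_mul,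
      Complex.re_ofReal_mul] at h
    exact lt_of_mul_lt_mul_left h (by positivity)
  have hu1 := Unitary.mem_iff.1 (hu 1)
  let w : CM P Q := ⟨fun s => u s * star (u 1), u.continuous.mul continuous_const⟩
  have hw : ∀ s, w s ∈ unitary (MM P Q) := fun s => mul_mem (hu s) (Unitary.star_mem (hu 1))
  have hw1 : w 1 = 1 := hu1.2
  have m1 : ∀ i, cone l0 u (one1 Q (x i)) ∈ DD P Q := fun i => by
    refine ⟨fun t => ?_, fun t => ?_⟩
    · rw [cone_apply, hu0, l0_zero, one_smul, star_one, one_mul, mul_one]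
      exact one1_comm _ _
    · rw [cone_apply, l0_one, zero_smul]
      exact Commute.zero_left _
  have m2 : ∀ i, cone l1 w (one2 P (y i)) ∈ DD P Q := fun i => by
    refine ⟨fun t => ?_, fun t => ?_⟩
    · rw [cone_apply, l1_zero, zero_smul]
      exact Commute.zero_left _
    · rw [cone_apply, hw1, l1_one, one_smul, star_one, one_mul, mul_one]
      exact (one1_comm _ _).symm
  have hx2 : Nil fun i => one1 Q (x i) := hx.map o1
  have hy2 : Nil fun i => one2 P (y i) := hy.map o2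
  refine ⟨Sum.elim (fun i => ⟨cone l0 u (one1 Q (x i)), m1 i⟩)
    (fun i => ⟨cone l1 w (one2 P (y i)), m2 i⟩), ?_, ?_, ?_⟩
  · rintro (i | i)
    · exact Subtype.ext (cone_sq l0 hu (hx2.1 i))
    · exact Subtype.ext (cone_sq l1 hw (hy2.1 i))
  · rw [Fintype.sum_sum_type]
    apply Subtype.ext
    have e1 : ((∑ i, star (⟨cone l0 u (one1 Q (x i)), m1 i⟩ : DD P Q) *
        ⟨cone l0 u (one1 Q (x i)), m1 i⟩ : DD P Q) : CM P Q) =
        ∑ i, star (cone l0 u (one1 Q (x i))) * cone l0 u (one1 Q (x i)) := by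
      rw [AddSubmonoidClass.coe_finsetSum]
      rfl
    have e2 : ((∑ i, star (⟨cone l1 w (one2 P (y i)), m2 i⟩ : DD P Q) *
        ⟨cone l1 w (one2 P (y i)), m2 i⟩ : DD P Q) : CM P Q) =
        ∑ i, star (cone l1 w (one2 P (y i))) * cone l1 w (one2 P (y i)) := by
      rw [AddSubmonoidClass.coe_finsetSum]
      rfl
    change ((∑ i, star (⟨cone l0 u (one1 Q (x i)), m1 i⟩ : DD P Q) *
        ⟨cone l0 u (one1 Q (x i)), m1 i⟩ : DD P Q) : CM P Q) +
      ((∑ i, star (⟨cone l1 w (one2 P (y i)), m2 i⟩ : DD P Q) *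
        ⟨cone l1 w (one2 P (y i)), m2 i⟩ : DD P Q) : CM P Q) = 1
    rw [e1, e2]
    ext s : 1
    rw [ContinuousMap.add_apply, cone_sum l0 hu hx2.2, cone_sum l1 hw hy2.2, ← add_smul, l01,
      one_smul]
    rfl
  · rintro f c δ hf hδ0 hδ (i | i)
    · obtain ⟨d, hd, hdn⟩ := hxc f c hf
      refine cone_comm norm_l0 hu (norm_le_one_of_sum hx2.2 i) ((hd i).map o1)
        (by linarith [hf.1]) fun s => ?_
      have h1 : ‖u s * ev 0 (φ f) * star (u s) - u s * o1 d * star (u s)‖ ≤ c := by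
        rw [norm_conj_sub (hu s), ← one1_lam hQ]
        change ‖o1 (lam hQ (φ f)) - o1 d‖ ≤ c
        rw [← map_sub]
        exact (NonUnitalStarAlgHom.norm_apply_le ((o1 : Matrix (Fin P) (Fin P) ℂ →⋆ₐ[ℂ] MM P Q) :
          Matrix (Fin P) (Fin P) ℂ →⋆ₙₐ[ℂ] MM P Q) _).trans hdn
      have h3 := norm_sub_le_norm_sub_add_norm_sub (ev s (φ f)) (u s * ev 0 (φ f) * star (u s))
        (u s * o1 d * star (u s))
      change ‖ev s (φ f) - _‖ ≤ _
      linarith [hδ s]
    · obtain ⟨d, hd, hdn⟩ := hyc f c hf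
      refine cone_comm norm_l1 hw (norm_le_one_of_sum hy2.2 i) ((hd i).map o2)
        (by linarith [hf.1]) fun s => ?_
      have h0 : ‖w s * ev 1 (φ f) * star (w s) - w s * o2 d * star (w s)‖ ≤ c := by
        rw [norm_conj_sub (hw s), ← one2_rho hP]
        change ‖o2 (rho hP (φ f)) - o2 d‖ ≤ c
        rw [← map_sub]
        exact (NonUnitalStarAlgHom.norm_apply_le ((o2 : Matrix (Fin Q) (Fin Q) ℂ →⋆ₐ[ℂ] MM P Q) :
          Matrix (Fin Q) (Fin Q) ℂ →⋆ₙₐ[ℂ] MM P Q) _).trans hdn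
      have h1 : w s * (u 1 * ev 0 (φ f) * star (u 1)) * star (w s) =
          u s * ev 0 (φ f) * star (u s) := by
        change u s * star (u 1) * (u 1 * ev 0 (φ f) * star (u 1)) * star (u s * star (u 1)) = _
        rw [star_mul, star_star]
        calc u s * star (u 1) * (u 1 * ev 0 (φ f) * star (u 1)) * (u 1 * star (u s))
            = u s * (star (u 1) * u 1) * ev 0 (φ f) * (star (u 1) * u 1) * star (u s) := by
              simp only [mul_assoc]
          _ = _ := by rw [hu1.1, mul_one, mul_one]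
      have h2 : ‖u s * ev 0 (φ f) * star (u s) - w s * ev 1 (φ f) * star (w s)‖ ≤ δ := by
        rw [← h1, norm_conj_sub (hw s), norm_sub_rev]
        exact hδ 1
      have h3 := norm_sub_le_norm_sub_add_norm_sub (ev s (φ f)) (u s * ev 0 (φ f) * star (u s))
        (w s * ev 1 (φ f) * star (w s))
      have h4 := norm_sub_le_norm_sub_add_norm_sub (ev s (φ f)) (w s * ev 1 (φ f) * star (w s))
        (w s * o2 d * star (w s))
      change ‖ev s (φ f) - _‖ ≤ _
      linarith [hδ s]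

end Vale.Agent.P095U65
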