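import Vale.Agent.P095U57.Trace
import Vale.Agent.P095U65.Coll
import Vale.Agent.P095U65.StmtJS

/-! A simple monotracial limit of prime dimension drop algebras: approximation at one stage. -/

open Filter Topology
open scoped Kronecker Matrix.Norms.L2Operator unitInterval

namespace Vale.Agent.P095U65

open Vale.Agent.JS Vale.Agent.JS.PartB Vale.Agent.JS.PartD Vale.Agent.JS.PartE

universe u

variable {Z : Type u} [CStarAlgebra Z]

theorem ev_apply {p q : ℕ} (t : I) (f : DD p q) : ev t f = (f : CM p q) t := rfl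

theorem exists_osc {p q : ℕ} (f : DD p q) {δ : ℝ} (hδ : 0 < δ) :
    ∀ᶠ L : ℕ in atTop, Osc f (1 / L) δ := by
  obtain ⟨d, hd, h⟩ := Metric.uniformContinuous_iff.1
    (CompactSpace.uniformContinuous_of_continuous (f : CM p q).continuous) δ hδ
  filter_upwards [tendsto_one_div_atTop_nhds_zero_nat.eventually (gt_mem_nhds hd)] with L hL
  refine ⟨hδ.le, fun s t hst => ?_⟩
  rw [← dist_eq_norm]
  exact (h (hst.trans_lt hL)).le

theorem gap_pos {p q : ℕ} (hp : 0 < p) (hq : 0 < q) (ι : DD p q →⋆ₐ[ℂ] Z)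
    (hι : Function.Injective ι) (hs : P095R.IsSimpleAlg Z) {τ : Z →ₗ[ℂ] ℂ} (hτ : IsTracialState τ)
    (hb : ∀ z, ‖τ z‖ ≤ ‖z‖) {M K : ℕ} (hK : K + 2 ≤ M) :
    (τ (ι (sr (rmp M (K + 1))))).re < (τ (ι (sr (rmp M K)))).re := by
  have hK' : (K : ℝ) + 2 ≤ M := by exact_mod_cast hK
  have hM : (0 : ℝ) < M := by linarith [(Nat.cast_nonneg K : (0 : ℝ) ≤ K)]
  let g : C(I, ℝ) := ⟨fun t => √(rmp M K t - rmp M (K + 1) t), by fun_prop⟩
  have hg : ∀ t, g t * g t = rmp M K t - rmp M (K + 1) t := fun t =>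
    Real.mul_self_sqrt (sub_nonneg.2 (P095U27.clamp_mono (by linarith)))
  have h1 : star (sr g : DD p q) * sr g = sr (rmp M K) - sr (rmp M (K + 1)) := by
    apply Subtype.ext
    ext t : 1
    change star ((g t : ℂ) • (1 : MM p q)) * (g t : ℂ) • (1 : MM p q) =
      (rmp M K t : ℂ) • (1 : MM p q) - (rmp M (K + 1) t : ℂ) • (1 : MM p q)
    rw [star_smul, star_one, smul_mul_smul_comm, mul_one, ← sub_smul, Complex.star_def,
      Complex.conj_ofReal, ← Complex.ofReal_mul, hg, Complex.ofReal_sub]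
  have h2 : ι (sr g) ≠ 0 := fun h0 => by
    have h3 : (sr g : DD p q) = 0 := hι (h0.trans (map_zero ι).symm)
    let t : I := ⟨(K + 1) / M, by positivity, by rw [div_le_one hM]; linarith⟩
    have h4 := trace_ev_sr (p := p) (q := q) g t
    have h5 : (M : ℝ) * (t : ℝ) = K + 1 := by
      change (M : ℝ) * ((K + 1) / M) = K + 1
      field_simp
    have h6 : g t = 1 := by
      change √(Hat.clamp (M * (t : ℝ) - K) - Hat.clamp (M * (t : ℝ) - (K + 1))) = 1
      rw [h5, sub_self, add_sub_cancel_left]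
      simp [Hat.clamp]
    rw [h3, map_zero, Matrix.trace_zero, h6] at h4
    simp [hp.ne', hq.ne'] at h4
  have h3 := P095U57.trace_pos hs hτ hb h2
  rw [← map_star, ← map_mul, h1, map_sub ι, map_sub, Complex.sub_re] at h3
  linarith

theorem exists_stage {p q : ℕ → ℕ} (ι : ∀ n, DD (p n) (q n) →⋆ₐ[ℂ] Z)
    (hmono : Monotone fun n => (ι n).range) (hd : Dense (⋃ n, Set.range (ι n))) (F : Finset Z)
    {δ : ℝ} (hδ : 0 < δ) : ∃ n, ∀ x ∈ F, ∃ f : DD (p n) (q n), ‖ι n f - x‖ < δ := by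
  have h : ∀ x ∈ F, ∀ᶠ n in atTop, ∃ f : DD (p n) (q n), ‖ι n f - x‖ < δ := fun x _ => by
    obtain ⟨y, hy, _, ⟨m, rfl⟩, ⟨g, rfl⟩⟩ := Metric.dense_iff.1 hd x δ hδ
    filter_upwards [eventually_ge_atTop m] with n hn
    obtain ⟨f, hf⟩ := hmono hn ⟨g, rfl⟩
    refine ⟨f, ?_⟩
    have hf' : ι n f = ι m g := hf
    rw [hf', ← dist_eq_norm]
    exact hy
  exact (F.eventually_all.2 h).exists

/-- Finitely many elements are approximated at one stage by functions which are almost constant up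
to a path of unitaries and almost commute with a partition of unity by nilpotents. -/
theorem IsJS.approx (h : IsJS Z) (F : Finset Z) {δ : ℝ} (hδ : 0 < δ) :
    ∃ (P Q : ℕ) (_ : 0 < P) (_ : 0 < Q) (ι : DD P Q →⋆ₐ[ℂ] Z) (g : Z → DD P Q) (u : CM P Q)
      (z : Fin 3 ⊕ Fin 3 → DD P Q), (∀ s, u s ∈ unitary (MM P Q)) ∧ u 0 = 1 ∧
      (∀ i, z i * z i = 0) ∧ ∑ i, star (z i) * z i = 1 ∧ ∀ x ∈ F, ‖ι (g x) - x‖ < δ ∧
        (∀ s, ‖ev s (g x) - u s * ev 0 (g x) * star (u s)‖ ≤ 2 * δ) ∧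
        ∀ i, ‖(z i : CM P Q) * g x - g x * (z i : CM P Q)‖ ≤ 10 * δ := by
  classical
  obtain ⟨p, q, R, hR, hpq, hd⟩ := h.limit
  obtain ⟨τ, hτ, hτu⟩ := h.trace
  have hp : ∀ n, 0 < p n := fun n => (hpq n).1
  have hq : ∀ n, 0 < q n := fun n => (hpq n).2.1
  have hι : ∀ n, ∃ ι : DD (p n) (q n) →⋆ₐ[ℂ] Z, Function.Injective ι ∧ ι.range = R n := fun n => by
    obtain ⟨S, hS, ⟨e⟩⟩ := (hpq n).2.2.2
    have hSD : S = DD (p n) (q n) := by
      ext f
      rw [hS f, mem_DD_iff (hp n) (hq n)]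
    subst hSD
    refine ⟨(R n).subtype.comp (e : DD (p n) (q n) →⋆ₐ[ℂ] R n),
      Subtype.val_injective.comp e.injective, ?_⟩
    ext z
    constructor
    · rintro ⟨x, rfl⟩
      exact (e x).2
    · intro hz
      refine ⟨e.symm ⟨z, hz⟩, ?_⟩
      change ((e (e.symm ⟨z, hz⟩) : R n) : Z) = z
      rw [e.apply_symm_apply]
  choose ι hinj hrange using hι
  have hmono : Monotone fun n => (ι n).range := by simpa only [hrange] using hR
  have hd' : Dense (⋃ n, Set.range (ι n)) := by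
    refine hd.mono (Set.iUnion_mono fun n z hz => ?_)
    rw [← hrange] at hz
    exact hz
  obtain ⟨hb, hunif⟩ := P095U57.trace_unif hp hq ι hinj hmono hd' hτu
  obtain ⟨n, hn⟩ := exists_stage ι hmono hd' F hδ
  choose! f hf using hn
  obtain ⟨L, hL, hL2⟩ := ((F.eventually_all.2 fun x _ => exists_osc (f x) hδ).and
    (eventually_ge_atTop 2)).exists
  have hev : ∀ K ∈ Finset.range (4 * L), ∀ᶠ m in atTop, K + 2 ≤ 4 * L →
      ∀ (g g' : DD (p m) (q m)) (s s' : I), ι m g = ι n (sr (rmp (4 * L) K)) →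
        ι m g' = ι n (sr (rmp (4 * L) (K + 1))) → (ev s' g').trace.re < (ev s g).trace.re := by
    intro K _
    by_cases hK : K + 2 ≤ 4 * L
    swap
    · exact Eventually.of_forall fun m h => absurd h hK
    have hgap := half_pos (sub_pos.2 (gap_pos (hp n) (hq n) (ι n) (hinj n) h.simple hτ hb hK))
    filter_upwards [hunif (ι n (sr (rmp (4 * L) K))) _ hgap,
      hunif (ι n (sr (rmp (4 * L) (K + 1)))) _ hgap] with m h1 h2 _ g g' s s' hg hg'
    have h3 := (Complex.abs_re_le_norm _).trans_lt (h1 g s hg)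
    have h4 := (Complex.abs_re_le_norm _).trans_lt (h2 g' s' hg')
    rw [Complex.sub_re, abs_lt] at h3 h4
    have h5 : (PartT4.nt (ev s' g')).re < (PartT4.nt (ev s g)).re := by
      rw [ev_apply, ev_apply]
      linarith [h3.1, h4.2]
    rw [PartT4.nt, PartT4.nt, ← Complex.ofReal_natCast, ← Complex.ofReal_inv,
      Complex.re_ofReal_mul, Complex.re_ofReal_mul] at h5
    exact lt_of_mul_lt_mul_left h5 (by positivity)
  obtain ⟨m, hm, hnm⟩ := (((Finset.range (4 * L)).eventually_all.2 hev).and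
    (eventually_ge_atTop n)).exists
  obtain ⟨φ, hφ⟩ := exists_lift (ι n) (ι m) (hinj m) fun a => by
    obtain ⟨b, hb⟩ := hmono hnm ⟨a, rfl⟩
    exact ⟨b, hb.symm⟩
  have H : Close φ (4 * L) := fun s s' K hK =>
    hm K (Finset.mem_range.2 (by omega)) hK _ _ s s' (hφ _) (hφ _)
  have hL0 : (0 : ℝ) < L := by exact_mod_cast (by omega : 0 < L)
  obtain ⟨u, hu, hu0, hcol⟩ := exists_collapse (hp n) (hq n) (hpq n).2.2.1 φ (by omega) H
    (F.image f) (c := δ) (fun g hg => by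
      obtain ⟨x, hx, rfl⟩ := Finset.mem_image.1 hg
      refine ⟨hδ.le, fun s t hst => (hL x hx).2 s t (hst.trans ?_)⟩
      rw [div_le_div_iff₀ (by positivity) hL0]
      push_cast
      linarith) hδ
  obtain ⟨z, hz, hz1, hzc⟩ := exists_elements (hp n) (hq n) (hpq n).2.2.1 (hp m) (hq m) φ hL2 H
    hu hu0
  refine ⟨p m, q m, hp m, hq m, ι m, fun x => φ (f x), u, z, hu, hu0, hz, hz1, fun x hx => ?_⟩
  have h1 := hcol (f x) (Finset.mem_image_of_mem f hx)
  refine ⟨by rw [hφ]; exact hf x hx, fun s => (h1 s).trans (le_of_eq (by ring)), fun i => ?_⟩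
  exact (hzc (f x) δ (δ + δ) (hL x hx) (by positivity) h1 i).trans (le_of_eq (by ring))

end Vale.Agent.P095U65
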