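import Vale.Agent.P095JS.All
import Vale.Agent.P095U65.Lim

/-! The uniqueness theorem of Jiang and Su. -/

open Filter Topology
open scoped Kronecker Matrix.Norms.L2Operator unitInterval

namespace Vale.Agent.P095U65

open Vale.Agent.JS Vale.Agent.JS.PartB Vale.Agent.JS.PartD Vale.Agent.JS.PartE

universe u

variable {Z : Type u} [CStarAlgebra Z]

theorem IsJS.halfFlip (h : IsJS Z) (B : Type u) [CStarAlgebra B] : P101.HalfFlip Z B := by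
  refine ⟨fun φ ψ hφψ F ε hε => ?_⟩
  set δ := ε / 11 with hδ
  have hδ0 : 0 < δ := by positivity
  obtain ⟨P, Q, hp, hq, ι, g, u, z, hu, hu0, -, -, hg⟩ := h.approx F hδ0
  obtain ⟨W, hW, hWu, hWf⟩ := PartD.main _ _ hp hq u hu hu0
  obtain ⟨Θ, hΘl, hΘr, hΘn⟩ := PartB.main _ _ hp hq B (φ.comp ι) (ψ.comp ι) (fun x y => hφψ _ _)
  have hWW : (⟨W, hW⟩ : EE P Q) ∈ unitary (EE P Q) := by
    rw [Unitary.mem_iff]
    constructor
    · ext z : 2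
      exact (Unitary.mem_iff.1 (hWu z)).1
    · ext z : 2
      exact (Unitary.mem_iff.1 (hWu z)).2
  have hv : Θ ⟨W, hW⟩ ∈ unitary B := by
    rw [Unitary.mem_iff] at hWW ⊢
    rw [← map_star, ← map_mul, ← map_mul, hWW.1, hWW.2, map_one]
    exact ⟨rfl, rfl⟩
  refine ⟨Θ ⟨W, hW⟩, hv, fun x hx => ?_⟩
  have h1 : ‖Θ ⟨W, hW⟩ * φ (ι (g x)) * star (Θ ⟨W, hW⟩) - ψ (ι (g x))‖ ≤ 4 * (2 * δ) := by
    have e1 : φ (ι (g x)) = Θ ⟨lft (g x : CM _ _), lft_mem (g x).2⟩ := (hΘl (g x)).symm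
    have e2 : ψ (ι (g x)) = Θ ⟨rgt (g x : CM _ _), rgt_mem (g x).2⟩ := (hΘr (g x)).symm
    rw [e1, e2, ← map_star, ← map_mul, ← map_mul, ← map_sub]
    refine (hΘn _).trans ?_
    exact hWf (g x) (g x).2 (2 * δ) (by positivity) (hg x hx).2.1
  have h2 : ‖φ (ι (g x)) - φ x‖ ≤ δ := by
    rw [← map_sub]
    exact (NonUnitalStarAlgHom.norm_apply_le (φ : Z →⋆ₙₐ[ℂ] B) _).trans (hg x hx).1.le
  have h3 : ‖ψ (ι (g x)) - ψ x‖ ≤ δ := by
    rw [← map_sub]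
    exact (NonUnitalStarAlgHom.norm_apply_le (ψ : Z →⋆ₙₐ[ℂ] B) _).trans (hg x hx).1.le
  refine (est_conj hv h1 h2 h3).trans_lt ?_
  rw [hδ]; linarith

theorem IsJS.hasNil (h : IsJS Z) : HasNil (Fin 3 ⊕ Fin 3) Z := by
  refine ⟨fun F ε hε => ?_⟩
  set δ := ε / 12 with hδ
  have hδ0 : 0 < δ := by positivity
  obtain ⟨P, Q, -, -, ι, g, u, z, -, -, hz, hz1, hg⟩ := h.approx F hδ0
  refine ⟨fun i => ι (z i), fun i => map_sq_rel _ (hz i), map_sum_rel _ hz1, fun i a ha => ?_⟩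
  have hzi : ‖ι (z i)‖ ≤ 1 := norm_le_one_of_sum (z := fun i => ι (z i)) (map_sum_rel _ hz1) i
  have h1 : ‖ι (z i) * ι (g a) - ι (g a) * ι (z i)‖ ≤ 10 * δ :=
    map_comm_le _ _ _ ((hg a ha).2.2 i)
  have h2 : ι (z i) * a - a * ι (z i) = (ι (z i) * ι (g a) - ι (g a) * ι (z i)) -
      (ι (z i) * (ι (g a) - a) - (ι (g a) - a) * ι (z i)) := by
    rw [mul_sub, sub_mul]; abel
  rw [h2]
  calc _ ≤ ‖ι (z i) * ι (g a) - ι (g a) * ι (z i)‖ +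
        ‖ι (z i) * (ι (g a) - a) - (ι (g a) - a) * ι (z i)‖ := norm_sub_le _ _
    _ ≤ 10 * δ + (‖ι (z i) * (ι (g a) - a)‖ + ‖(ι (g a) - a) * ι (z i)‖) :=
        add_le_add h1 (norm_sub_le _ _)
    _ ≤ 10 * δ + (‖ι (z i)‖ * ‖ι (g a) - a‖ + ‖ι (g a) - a‖ * ‖ι (z i)‖) := by
        gcongr <;> exact norm_mul_le _ _
    _ ≤ 10 * δ + (1 * δ + δ * 1) := by
        gcongr
        · exact (hg a ha).1.le
        · exact (hg a ha).1.le
    _ = ε := by rw [hδ]; ring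

theorem IsJS.isJiangSuAlgebra (h : IsJS Z) : P101.IsJiangSuAlgebra Z :=
  ⟨h.limit, fun B _ => h.halfFlip B⟩

theorem IsJS.isJiangSuZ (habs : Absorption.{u}) (h : IsJS Z) : IsJiangSuZ Z := by
  have := separable_of_isJiangSu h.isJiangSuAlgebra
  obtain ⟨E, _, i, j, hE, -⟩ := PartT3.exists_completion Z Z
  exact isJiangSuZ_of h.isJiangSuAlgebra (ssa_of_completion habs h.isJiangSuAlgebra
    ⟨Filter.hyperfilter ℕ, Filter.hyperfilter_le_cofinite,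
      h.hasNil.no_char _ Filter.hyperfilter_le_cofinite⟩ hE)

theorem isJS_of (h : IsJiangSuZ Z) : IsJS Z := ⟨h.limit.limit, h.simple, h.trace⟩

theorem exists_isJS (habs : Absorption.{u}) : ∃ (Z : Type u) (_ : CStarAlgebra Z), IsJS Z := by
  obtain ⟨Z, _, hZ, -⟩ := exists_jiangSu habs
  exact ⟨Z, inferInstance, isJS_of hZ⟩

/-- The uniqueness theorem. -/
theorem IsJS.unique (habs : Absorption.{u}) {Z' : Type u} [CStarAlgebra Z'] (h : IsJS Z)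
    (h' : IsJS Z') : Nonempty (Z ≃⋆ₐ[ℂ] Z') :=
  (h.isJiangSuZ habs).unique habs (h'.isJiangSuZ habs)

theorem IsJS.iff (habs : Absorption.{u}) (h : IsJS Z) {A B : Type u} [CStarAlgebra A]
    [CStarAlgebra B] [TopologicalSpace.SeparableSpace A] {i : A →⋆ₐ[ℂ] B} {j : Z →⋆ₐ[ℂ] B}
    (hB : P101.IsTensorCompletion i j) (ω : Ultrafilter ℕ)
    (hω : (ω : Filter ℕ) ≤ Filter.cofinite) :
    (¬ ∃ χ : (ℕ → A) → ℂ, P101.IsCharacter (ω : Filter ℕ) χ) ↔ Nonempty (A ≃⋆ₐ[ℂ] B) := by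
  constructor
  · intro hA
    obtain ⟨θ, -⟩ := habs A Z B h.isJiangSuAlgebra ⟨ω, hω, hA⟩ i j hB
    exact ⟨θ⟩
  · rintro ⟨e⟩
    exact (PartU.HasNil.of_equiv (PartU.HasNil.of_tensor h.hasNil hB) e.symm).no_char ω hω

end Vale.Agent.P095U65
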