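import Vale.Agent.P095.MathlibUsed

/-! Cocycle conjugacy, for the final statements. -/

open scoped MultiplierAlgebra

namespace Vale.Agent.P095U65

universe u w

/-- The actions `α` and `β` are cocycle conjugate: there are a star-isomorphism `Φ : A → B` and
unitaries `u_g` of the multiplier algebra of `B` with `u_{gh} = u_g β_g(u_h)` and
`Φ(α_g(a)) = u_g β_g(Φ(a)) u_g^*`. Here `β' g` is the automorphism of the multiplier algebra which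
extends `β g`. -/
structure CocycleConjugate {A B : Type u} [NonUnitalCStarAlgebra A] [NonUnitalCStarAlgebra B]
    {G : Type w} [Group G] (α : G →* (A ≃⋆ₐ[ℂ] A)) (β : G →* (B ≃⋆ₐ[ℂ] B)) : Prop where
  conj : ∃ (Φ : A ≃⋆ₐ[ℂ] B) (u : G → 𝓜(ℂ, B)) (β' : G → (𝓜(ℂ, B) ≃⋆ₐ[ℂ] 𝓜(ℂ, B))),
    (∀ g (b : B), β' g (b : 𝓜(ℂ, B)) = ((β g b : B) : 𝓜(ℂ, B))) ∧
    (∀ g, u g ∈ unitary 𝓜(ℂ, B)) ∧ (∀ g h, u (g * h) = u g * β' g (u h)) ∧
    ∀ g a, ((Φ (α g a) : B) : 𝓜(ℂ, B)) = u g * ((β g (Φ a) : B) : 𝓜(ℂ, B)) * star (u g)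

end Vale.Agent.P095U65
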