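import Vale.Agent.P095K.GStmt
import Vale.Agent.P095U65.StmtCoc

/-! Automorphisms extend to the multiplier algebra. -/

open scoped MultiplierAlgebra

namespace Vale.Agent.P095U65

universe u w

variable {A B : Type u} [NonUnitalCStarAlgebra A] [NonUnitalCStarAlgebra B]

theorem mult_ext {x y : 𝓜(ℂ, B)} (h : ∀ b, x.fst b = y.fst b) : x = y := by
  refine DoubleCentralizer.ext _ _ _ _ (Prod.ext (ContinuousLinearMap.ext h) ?_)
  refine ContinuousLinearMap.ext fun a => ?_
  have h1 : ∀ b, (x.snd a - y.snd a) * b = 0 := fun b => by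
    rw [sub_mul, x.central, y.central, h, sub_self]
  exact sub_eq_zero.1 ((CStarRing.mul_star_self_eq_zero_iff _).1 (h1 _))

/-- An automorphism as a continuous linear map. -/
noncomputable def clm (e : B ≃⋆ₐ[ℂ] B) : B →L[ℂ] B :=
  LinearMap.mkContinuous
    { toFun := e, map_add' := map_add e, map_smul' := map_smul e } 1 fun b => by
      rw [one_mul]
      exact NonUnitalStarAlgHom.norm_apply_le (e : B →⋆ₙₐ[ℂ] B) b

/-- The image of a multiplier under an automorphism. -/
noncomputable def cj (e : B ≃⋆ₐ[ℂ] B) (x : 𝓜(ℂ, B)) : 𝓜(ℂ, B) where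
  fst := (clm e).comp (x.fst.comp (clm e.symm))
  snd := (clm e).comp (x.snd.comp (clm e.symm))
  central a b := by
    change e (x.snd (e.symm a)) * b = a * e (x.fst (e.symm b))
    have h := congrArg e (x.central (e.symm a) (e.symm b))
    rwa [map_mul, map_mul, e.apply_symm_apply, e.apply_symm_apply] at h

theorem cj_fst (e : B ≃⋆ₐ[ℂ] B) (x : 𝓜(ℂ, B)) (b : B) :
    (cj e x).fst b = e (x.fst (e.symm b)) := rfl

/-- The extension of an automorphism to the multiplier algebra. -/
noncomputable def extM (e : B ≃⋆ₐ[ℂ] B) : 𝓜(ℂ, B) ≃⋆ₐ[ℂ] 𝓜(ℂ, B) where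
  toFun := cj e
  invFun := cj e.symm
  left_inv x := mult_ext fun b => by
    rw [cj_fst, cj_fst, e.symm_apply_apply, StarAlgEquiv.symm_symm, e.symm_apply_apply]
  right_inv x := mult_ext fun b => by
    rw [cj_fst, cj_fst, e.apply_symm_apply, StarAlgEquiv.symm_symm, e.apply_symm_apply]
  map_mul' x y := mult_ext fun b => by
    change e (x.fst (y.fst (e.symm b))) = e (x.fst (e.symm (e (y.fst (e.symm b)))))
    rw [e.symm_apply_apply]
  map_add' x y := mult_ext fun b => map_add e _ _
  map_star' x := mult_ext fun b => by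
    change e (star (x.snd (star (e.symm b)))) = star (e (x.snd (e.symm (star b))))
    rw [map_star e, map_star e.symm]
  map_smul' r x := mult_ext fun b => map_smul e _ _

theorem cocycleConjugate_of {G : Type w} [Group G] {α : G →* (A ≃⋆ₐ[ℂ] A)}
    {β : G →* (B ≃⋆ₐ[ℂ] B)} (h : P095K.IsCocycleConj α β) : CocycleConjugate α β := by
  obtain ⟨Φ, u, h1, h2, h3⟩ := h.conj
  refine ⟨Φ, u, fun g => extM (β g), fun g b => mult_ext fun c => ?_, h1,
    fun g h => mult_ext fun b => ?_, h3⟩
  · change β g (b * (β g).symm c) = β g b * c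
    rw [map_mul, StarAlgEquiv.apply_symm_apply]
  · have := h2 g h ((β g).symm b)
    rw [StarAlgEquiv.apply_symm_apply] at this
    exact this

end Vale.Agent.P095U65
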