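import Vale.Agent.P095JS.Stmt
import Vale.Agent.P095L58.Defs

/-! The Jiang-Su algebra as an inductive limit, for the final statements. -/

namespace Vale.Agent.P095U65

universe u

/-- `Z` is an inductive limit of prime dimension drop algebras with unital embeddings, it is
simple, and it has exactly one tracial state. -/
structure IsJiangSu (Z : Type u) [CStarAlgebra Z] : Prop where
  limit : P095L.IsLimit Z
  simple : P095R.IsSimpleAlg Z
  trace : ∃! τ : Z →ₗ[ℂ] ℂ, JS.IsTracialState τ

end Vale.Agent.P095U65
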