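import Vale.Agent.P095L58.C
import Vale.Agent.P095U27.Ultra
import Vale.Agent.P095U65.Main
import Vale.Agent.P095U65.StmtJiangSu

/-! The statements for inductive limits and spatial tensor products. The first lemmas repeat
lemmas of `P095L58.D`, to keep the imports small. -/

open Filter Topology
open scoped TensorProduct

namespace Vale.Agent.P095U65

open Vale.Agent.P095L

universe u

theorem closure_one {A Z P : Type u} [CStarAlgebra A] [CStarAlgebra Z] [CStarAlgebra P]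
    {T : A →ₗ[ℂ] Z →ₗ[ℂ] P} (h : MS T) (h1 : T 1 1 = 1) :
    ∃ (B : Type u) (_ : CStarAlgebra B) (T' : A →ₗ[ℂ] Z →ₗ[ℂ] B) (σ : B →⋆ₙₐ[ℂ] P),
      DenseRange (TensorProduct.lift T') ∧ Function.Injective σ ∧ ∀ a z, σ (T' a z) = T a z := by
  let R : StarSubalgebra ℂ P :=
    { carrier := LinearMap.range (TensorProduct.lift T)
      add_mem' := fun ha hb => Submodule.add_mem _ ha hb
      algebraMap_mem' := fun c => ⟨c • (1 ⊗ₜ 1), by
        rw [map_smul, TensorProduct.lift.tmul, h1, Algebra.algebraMap_eq_smul_one]⟩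
      mul_mem' := by
        rintro _ _ ⟨x, rfl⟩ ⟨y, rfl⟩
        exact ⟨x * y, h.lift_mul x y⟩
      star_mem' := by
        rintro _ ⟨x, rfl⟩
        exact ⟨star x, h.lift_star x⟩ }
  have hcl : IsClosed (R.topologicalClosure : Set P) := StarSubalgebra.isClosed_topologicalClosure _
  let _ := StarSubalgebra.cstarAlgebra R.topologicalClosure
  have hmem : ∀ a z, T a z ∈ R.topologicalClosure := fun a z =>
    StarSubalgebra.le_topologicalClosure _ ⟨a ⊗ₜ z, TensorProduct.lift.tmul _ _⟩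
  let T' : A →ₗ[ℂ] Z →ₗ[ℂ] R.topologicalClosure :=
    LinearMap.mk₂ ℂ (fun a z => ⟨T a z, hmem a z⟩)
      (fun a a' z => Subtype.ext (by simp)) (fun c a z => Subtype.ext (by simp))
      (fun a z z' => Subtype.ext (by simp)) (fun c a z => Subtype.ext (by simp))
  let σ : R.topologicalClosure →⋆ₙₐ[ℂ] P := (StarSubalgebra.subtype _).toNonUnitalStarAlgHom
  refine ⟨R.topologicalClosure, inferInstance, T', σ, fun z => ?_, Subtype.val_injective,
    fun a z => rfl⟩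
  rw [Metric.mem_closure_iff]
  intro ε hε
  obtain ⟨w, ⟨x, hx⟩, hw⟩ := Metric.mem_closure_iff.mp z.2 ε hε
  refine ⟨_, ⟨x, rfl⟩, ?_⟩
  rw [Subtype.dist_eq]
  refine lt_of_eq_of_lt ?_ hw
  congr 1
  rw [← hx]
  exact lift_map σ (T := T') (fun a z => rfl) x

theorem spatial_one (A Z : Type u) [CStarAlgebra A] [CStarAlgebra Z] [Nontrivial A]
    [Nontrivial Z] : ∃ (B : Type u) (_ : CStarAlgebra B) (T : A →ₗ[ℂ] Z →ₗ[ℂ] B), IsSpatial T := by
  obtain ⟨H, _, _, _, π, hπ⟩ := P070ZQ.exists_faithful_rep A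
  obtain ⟨K, _, _, _, ρ, hρ⟩ := P070ZQ.exists_faithful_rep Z
  obtain ⟨B, _, T, σ, hd, hσ, hT⟩ := closure_one (P := HT H K →L[ℂ] HT H K)
    (sp_ms π.toNonUnitalStarAlgHom ρ.toNonUnitalStarAlgHom) (by
      change lA K (π 1) * rA H (ρ 1) = 1
      rw [map_one, map_one, map_one, map_one, mul_one])
  exact ⟨B, inferInstance, T, hd, H, K, inferInstance, inferInstance, inferInstance, inferInstance,
    inferInstance, inferInstance, π.toNonUnitalStarAlgHom, ρ.toNonUnitalStarAlgHom, σ, hπ, hρ, hσ,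
    fun a z h k => by rw [hT]; exact sp_tt _ _ a z h k⟩

variable {Z : Type u} [CStarAlgebra Z]

/-- the limit property of the earlier files -/
def Lm (Z : Type u) [CStarAlgebra Z] : Prop :=
  ∃ (p q : ℕ → ℕ) (R : ℕ → StarSubalgebra ℂ Z), Monotone R ∧
    (∀ n, 0 < p n ∧ 0 < q n ∧ Nat.Coprime (p n) (q n) ∧ P101.IsDimDrop (p n) (q n) (R n)) ∧
    Dense (⋃ n, (R n : Set Z))

theorem limit_iff : IsLimit Z ↔ Lm Z := by
  constructor
  · rintro ⟨p, q, φ, ι, h, hd⟩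
    refine ⟨p, q, fun n => (ι n).range, monotone_nat_of_le_succ fun n => ?_, fun n =>
      ⟨(h n).1, (h n).2.1, (h n).2.2.1, ⟨I (p n) (q n), fun f => Iff.rfl,
        ⟨StarAlgEquiv.ofInjective (ι n) (h n).2.2.2.1⟩⟩⟩, hd⟩
    rintro _ ⟨x, rfl⟩
    exact ⟨φ n x, DFunLike.congr_fun (h n).2.2.2.2 x⟩
  · rintro ⟨p, q, R, hR, h, hd⟩
    have he : ∀ n, Nonempty (I (p n) (q n) ≃⋆ₐ[ℂ] R n) := fun n => by
      obtain ⟨S, hS, e⟩ := (h n).2.2.2.iso
      have : S = I (p n) (q n) := SetLike.ext hS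
      rwa [← this]
    let e : ∀ n, I (p n) (q n) ≃⋆ₐ[ℂ] R n := fun n => (he n).some
    refine ⟨p, q, fun n => ((e (n + 1)).symm : R (n + 1) →⋆ₐ[ℂ] I (p (n + 1)) (q (n + 1))).comp
      ((StarSubalgebra.inclusion (hR n.le_succ)).comp (e n : I (p n) (q n) →⋆ₐ[ℂ] R n)),
      fun n => (R n).subtype.comp (e n : I (p n) (q n) →⋆ₐ[ℂ] R n), fun n => ⟨(h n).1, (h n).2.1, (h n).2.2.1,
        fun x y hxy => (e n).injective (Subtype.ext hxy), StarAlgHom.ext fun x => ?_⟩, hd.mono ?_⟩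
    · exact congrArg Subtype.val ((e (n + 1)).apply_symm_apply _)
    · refine Set.iUnion_mono fun n z hz => ⟨(e n).symm ⟨z, hz⟩, ?_⟩
      exact congrArg Subtype.val ((e n).apply_symm_apply _)

theorem nontrivial_JS (h : JS.IsJiangSuZ Z) : Nontrivial Z :=
  h.simple.nonzero.elim fun a ha => ⟨a, 0, ha⟩

theorem infinite_JS (h : JS.IsJiangSuZ Z) : ¬ FiniteDimensional ℂ Z := by
  intro hf
  have := nontrivial_JS h
  obtain ⟨E, _, ⟨i, j, φ, hE, -⟩⟩ := h.absorbing.square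
  let φ' : Z ≃ₗ[ℂ] E := { φ with map_smul' := map_smul φ }
  have : FiniteDimensional ℂ E := φ'.finiteDimensional
  have h1 := LinearMap.finrank_le_finrank_of_injective
    (f := (Algebra.TensorProduct.lift (i : Z →ₐ[ℂ] E) (j : Z →ₐ[ℂ] E) hE.comm).toLinearMap)
    hE.injective
  rw [Module.finrank_tensorProduct, ← φ'.finrank_eq] at h1
  have h2 : 0 < Module.finrank ℂ Z := Module.finrank_pos
  have h3 : Module.finrank ℂ Z = 1 := by nlinarith
  obtain ⟨z, hz⟩ := JS.PartV.exists_not_scalar h.limit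
  obtain ⟨c, hc⟩ := (finrank_eq_one_iff_of_nonzero' (1 : Z) one_ne_zero).1 h3 z
  exact hz c hc.symm

theorem isJiangSu_iff : IsJiangSu Z ↔ IsJS Z :=
  ⟨fun h => ⟨limit_iff.1 h.limit, h.simple, h.trace⟩,
    fun h => ⟨limit_iff.2 h.limit, h.simple, h.trace⟩⟩

theorem IsJS.iff_spatial (habs : JS.PartE.Absorption.{u}) (h : IsJS Z) {A B : Type u}
    [CStarAlgebra A] [Nontrivial A] [NonUnitalCStarAlgebra B] [TopologicalSpace.SeparableSpace A]
    {T : A →ₗ[ℂ] Z →ₗ[ℂ] B} (hT : IsSpatial T) (ω : Ultrafilter ℕ)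
    (hω : (ω : Filter ℕ) ≤ Filter.cofinite) :
    ¬ P095U27.HasCharacter (P095U27.CentralSeq A ω) ↔ Nonempty (A ≃⋆ₐ[ℂ] B) := by
  have := nontrivial_JS (h.isJiangSuZ habs)
  obtain ⟨E, _, T', hT'⟩ := spatial_one A Z
  obtain ⟨Θ, -⟩ := hT.unique hT'
  rw [P095U27.hasCharacter_iff, h.iff habs hT'.completion ω hω]
  exact ⟨fun ⟨e⟩ => ⟨e.trans Θ.symm⟩, fun ⟨e⟩ => ⟨e.trans Θ⟩⟩

end Vale.Agent.P095U65
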