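import Mathlib
import Vale.Agent.P095JS.Stmt
import Vale.Agent.P095U27.StmtUltra

/-! The notions of the problem: minimal (spatial) tensor products, the Jiang-Su algebra, characters
of the central sequence algebra. -/

open scoped TensorProduct Kronecker

namespace Vale.Agent.P101S

universe u

section tensor

variable (A Z B : Type u) [NonUnitalCStarAlgebra A] [NonUnitalCStarAlgebra Z]
  [NonUnitalCStarAlgebra B] (H K L : Type u) [NormedAddCommGroup H] [InnerProductSpace ℂ H]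
  [CompleteSpace H] [NormedAddCommGroup K] [InnerProductSpace ℂ K] [CompleteSpace K]
  [NormedAddCommGroup L] [InnerProductSpace ℂ L] [CompleteSpace L]

/-- Isomorphic C*-algebras. -/
def Iso : Prop := Nonempty (A ≃⋆ₐ[ℂ] B)

/-- Bilinear maps; `T a z` stands for `a ⊗ z`. -/
abbrev Bil : Type u := A →ₗ[ℂ] Z →ₗ[ℂ] B

/-- Representations of `A` on the Hilbert space `H`. -/
abbrev Rep : Type u := A →⋆ₙₐ[ℂ] (H →L[ℂ] H)

variable {A Z B H K L}

/-- There are faithful representations `π`, `ρ`, `σ` of `A`, `Z`, `B` on `H`, `K`, `L` with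
`σ (T a z) = π a ⊗ ρ z`, where `t h k` stands for `h ⊗ k`. -/
def Implements (t : H → K → L) (T : Bil A Z B) : Prop :=
  ∃ (π : Rep A H) (ρ : Rep Z K) (σ : Rep B L), Function.Injective π ∧ Function.Injective ρ ∧
    Function.Injective σ ∧ ∀ a z h k, σ (T a z) (t h k) = t (π a h) (ρ z k)

variable (H K) in
/-- The same for the Hilbert space tensor product `L`, the completion of `H ⊗ K`. -/
def SpatialOn (T : Bil A Z B) : Prop :=
  Implements (L := UniformSpace.Completion (H ⊗[ℂ] K)) (fun h k => (h ⊗ₜ k : H ⊗[ℂ] K)) T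

/-- `B` is, via `T`, the minimal (spatial) tensor product of `A` and `Z`. -/
def IsSpatial (T : Bil A Z B) : Prop :=
  DenseRange (TensorProduct.lift T) ∧
  ∃ (H K : Type u) (_ : NormedAddCommGroup H) (_ : InnerProductSpace ℂ H) (_ : CompleteSpace H)
    (_ : NormedAddCommGroup K) (_ : InnerProductSpace ℂ K) (_ : CompleteSpace K), SpatialOn H K T

end tensor

/-- The dimension drop algebra `I(p, q)`. -/
def I (p q : ℕ) : StarSubalgebra ℂ C(unitInterval, Matrix (Fin p × Fin q) (Fin p × Fin q) ℂ) where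
  carrier := {f | (∃ x : Matrix (Fin p) (Fin p) ℂ, f 0 = x ⊗ₖ (1 : Matrix (Fin q) (Fin q) ℂ)) ∧
    ∃ y : Matrix (Fin q) (Fin q) ℂ, f 1 = (1 : Matrix (Fin p) (Fin p) ℂ) ⊗ₖ y}
  mul_mem' := by
    rintro f g ⟨⟨x, hx⟩, ⟨y, hy⟩⟩ ⟨⟨x', hx'⟩, ⟨y', hy'⟩⟩
    exact ⟨⟨x * x', by simp [hx, hx', ← Matrix.mul_kronecker_mul]⟩,
      ⟨y * y', by simp [hy, hy', ← Matrix.mul_kronecker_mul]⟩⟩
  add_mem' := by
    rintro f g ⟨⟨x, hx⟩, ⟨y, hy⟩⟩ ⟨⟨x', hx'⟩, ⟨y', hy'⟩⟩
    exact ⟨⟨x + x', by simp [hx, hx', Matrix.add_kronecker]⟩,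
      ⟨y + y', by simp [hy, hy', Matrix.kronecker_add]⟩⟩
  algebraMap_mem' r :=
    ⟨⟨r • 1, by simp [Algebra.algebraMap_eq_smul_one, Matrix.smul_kronecker]⟩,
      ⟨r • 1, by simp [Algebra.algebraMap_eq_smul_one, Matrix.kronecker_smul]⟩⟩
  star_mem' := by
    rintro f ⟨⟨x, hx⟩, ⟨y, hy⟩⟩
    exact ⟨⟨star x, by simp [hx, Matrix.star_eq_conjTranspose, Matrix.conjTranspose_kronecker]⟩,
      ⟨star y, by simp [hy, Matrix.star_eq_conjTranspose, Matrix.conjTranspose_kronecker]⟩⟩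

variable (Z : Type u) [CStarAlgebra Z]

/-- `Z` is the inductive limit of the algebras `D n` along unital embeddings `φ n`. -/
def IsIndLimit (D : ℕ → Type) [∀ n, Semiring (D n)] [∀ n, Algebra ℂ (D n)] [∀ n, Star (D n)] :
    Prop :=
  ∃ (φ : ∀ n, D n →⋆ₐ[ℂ] D (n + 1)) (ι : ∀ n, D n →⋆ₐ[ℂ] Z),
    (∀ n, Function.Injective (ι n) ∧ (ι (n + 1)).comp (φ n) = ι n) ∧ Dense (⋃ n, Set.range (ι n))

/-- `Z` is an inductive limit of prime dimension drop algebras. -/
def IsLimit : Prop :=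
  ∃ p q : ℕ → ℕ, (∀ n, 1 ≤ p n ∧ 1 ≤ q n ∧ Nat.Coprime (p n) (q n)) ∧
    IsIndLimit Z fun n => I (p n) (q n)

/-- `Z` has exactly one tracial state. -/
def OneTrace : Prop := ∃! τ : Z →ₗ[ℂ] ℂ, JS.IsTracialState τ

/-- The Jiang-Su algebra: a simple inductive limit of prime dimension drop algebras with exactly
one tracial state. -/
def IsJS : Prop := IsLimit Z ∧ P095R.IsSimpleAlg Z ∧ OneTrace Z

/-- Separable, nuclear and infinite-dimensional. -/
def Listed : Prop := TopologicalSpace.SeparableSpace Z ∧ P095R.IsNuclearAlg Z ∧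
  ¬ FiniteDimensional ℂ Z

/-- `F_ω(A)` has no characters. -/
def NoChar (A : Type u) [CStarAlgebra A] (ω : Ultrafilter ℕ) : Prop :=
  ¬ P095U27.HasCharacter (P095U27.CentralSeq A ω)

end Vale.Agent.P101S
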