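import Vale.Agent.P095JS.Side101
import Vale.Agent.P095U65.Spat
import Vale.Agent.P095U65.St101

/-! The notions of the statement file and the working notions. -/

namespace Vale.Agent.P101S

universe u

variable {Z : Type u} [CStarAlgebra Z]

theorem isLimit_iff : IsLimit Z ↔ P095U65.Lm Z := by
  rw [← P095U65.limit_iff]
  exact ⟨fun ⟨p, q, h, φ, ι, h1, h2⟩ => ⟨p, q, φ, ι, fun n => ⟨(h n).1, (h n).2.1, (h n).2.2, h1 n⟩,
    h2⟩, fun ⟨p, q, φ, ι, h, h2⟩ => ⟨p, q, fun n => ⟨(h n).1, (h n).2.1, (h n).2.2.1⟩, φ, ι,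
    fun n => (h n).2.2.2, h2⟩⟩

theorem isJS_iff : IsJS Z ↔ P095U65.IsJS Z :=
  ⟨fun h => ⟨isLimit_iff.1 h.1, h.2.1, h.2.2⟩, fun h => ⟨isLimit_iff.2 h.limit, h.simple, h.trace⟩⟩

theorem exists_isJS : ∃ (Z : Type u) (_ : CStarAlgebra Z), IsJS Z := by
  obtain ⟨Z, _, hZ⟩ := P095U65.exists_isJS JS.Side101.absorption
  exact ⟨Z, inferInstance, isJS_iff.2 hZ⟩

theorem IsJS.iso (h : IsJS Z) {Z' : Type u} [CStarAlgebra Z'] (h' : IsJS Z') : Iso Z Z' :=
  (isJS_iff.1 h).unique JS.Side101.absorption (isJS_iff.1 h')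

theorem IsJS.listed (h : IsJS Z) : Listed Z :=
  have h' := (isJS_iff.1 h).isJiangSuZ JS.Side101.absorption
  ⟨h'.separable, h'.nuclear, P095U65.infinite_JS h'⟩

theorem exists_spatial (A Z : Type u) [NonUnitalCStarAlgebra A] [NonUnitalCStarAlgebra Z] :
    ∃ (B : Type u) (_ : NonUnitalCStarAlgebra B) (T : Bil A Z B), IsSpatial T :=
  P095L.exists_spatial A Z

theorem IsJS.iff (h : IsJS Z) {A B : Type u} [CStarAlgebra A] (hA : Nontrivial A)
    [NonUnitalCStarAlgebra B] (hS : TopologicalSpace.SeparableSpace A) {T : Bil A Z B}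
    (hT : IsSpatial T) (ω : Ultrafilter ℕ) (hω : (ω : Filter ℕ) ≤ Filter.cofinite) :
    NoChar A ω ↔ Iso A B :=
  (isJS_iff.1 h).iff_spatial JS.Side101.absorption hT ω hω

end Vale.Agent.P101S
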